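import Vale.Agent.P277Z.Brg.Sk2
import Vale.Agent.P277Z.Slc.Basic

/-!
# P277, block BRG: the statements ADJV and FGV from the rows
-/

open scoped Manifold ContDiff Topology
open Set Filter
open Vale.Agent.P272.K Vale.Agent.P285.H281.FD Vale.Agent.P277
open Vale.Agent.P277Z.Slc (lin)
open Vale.Agent.P277Z.Val (Lg IsPM Res)

noncomputable section

namespace Vale.Agent.P277Z.Brg

theorem lbn_of {n : ℕ} {W : Type} [TopologicalSpace W] [ChartedSpace (Cm n) W] {L : Bd W}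
    (h : IsLB n L) (F : Set W) : LBN n F L :=
  ⟨h.isOpen, fun x _ => h.cover x, Eventually.of_forall fun y i j hi hj =>
    ⟨fun e he => (h.holo i j e y he hi hj).analyticAt, h.ne_zero i j y hi hj,
      fun k hk => h.cocycle i j k y hi hj hk⟩⟩

theorem posR_sum {n : ℕ} {W α ι : Type} [TopologicalSpace W] [ChartedSpace (Cm n) W] [Fintype α]
    {F : Set W} {L : α → Bd W} {v : ι → α → ℝ} (T : Finset ι) {c : α → ℝ} (h : PosR n F L c)
    (hv : ∀ i c, PosR n F L c → PosR n F L (c + v i)) : PosR n F L (c + ∑ i ∈ T, v i) := by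
  classical
  induction T using Finset.induction_on with
  | empty => simpa using h
  | insert a T ha ih => rw [Finset.sum_insert ha, add_comm (v a), ← add_assoc]; exact hv _ _ ih

variable {k : ℕ}

theorem lb_fam {V : Lg} {M : Fin k → Bd V.W} {O : Fin V.r → Bd V.W} (hM : ∀ e, IsLB 4 (M e))
    (hO : ∀ l, IsLB 4 (O l)) : ∀ a, IsLB 4 (fam V M O a)
  | none => Slc.isLB_can
  | some (.inl e) => hM e
  | some (.inr l) => hO l

theorem vec_eq {r : ℕ} [DecidableEq (Option (Fin k ⊕ Fin r))] (a : ℝ) (b : Fin k → ℝ)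
    (c : Fin r → ℝ) : vec a b c = Pi.single none a + ∑ l, Pi.single (some (.inr l)) (c l) +
      ∑ e, Pi.single (some (.inl e)) (b e) := by
  funext i
  rcases i with _ | e | l <;> simp [vec, Finset.sum_apply, Pi.single_apply]

theorem sct (V : Lg) : SecondCountableTopology V.W :=
  ChartedSpace.secondCountable_of_sigmaCompact (Cm 4) V.W

theorem adjv (hC : CALC) (hO : OPN) (hD : DIVV) : ADJV := by
  intro k m V χ M X L c p exc n O σ hσ hL hP γ hγ ρ lam hρ x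
  have := sct V
  have lb := fun a => lbn_of (lb_fam hP.lb (fun l => (hσ l).lb) a) (p ⁻¹' {x})
  obtain ⟨-, -, -, c4, -, c6, -⟩ := hC 4 V.W _ _ _ lb
  obtain ⟨-, -, o3⟩ := hO 4 V.W _ _ _ (isClosed_singleton.preimage hP.res.cont).isCompact lb
  obtain ⟨t, ht⟩ := hP.cmp
  have tr := (hD V O σ hσ).2.2 k m c M X L p n t ⟨hP.res.cont, hP.res.hol⟩ hP.lb hL ht
  refine posR_sum _ ?_ fun e c hc => ?_
  · rw [vec_eq, Pi.single_zero, zero_add]
    exact posR_sum _ (c6 _ (fun l => some (.inr l)) γ (hγ x)) fun e c hc =>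
      o3 χ _ c _ hP.kahler.toIsHermitian (hP.nef e) (hρ e) hc
  · obtain ⟨θ, h1, h2⟩ := tr e x
    exact c4 c _ θ _ h1 h2 hc

theorem fgv (hF : FGB 4) (hA : RAMP) (hR : RPO) (hD : DIVV) (h1 : Pj.RAP) (h2 : Pj.REMG) :
    FGV := by
  intro k V M X p exc O σ hσ hM hp
  have := sct V
  obtain ⟨P, c, τ, lb, am, hc, hτ⟩ := hp.amp
  have hol : Pj.HolTo 4 X p := ⟨hp.cont, hp.hol⟩
  have pos := hA 4 V.W X p P hol lb am
  obtain ⟨d1, d2, -⟩ := hD V O σ hσ
  refine ⟨⟨c, hc, d2 X p P c τ lb hτ pos⟩, fun N k' U Ω h ψ hψ x hx s hs => ?_⟩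
  refine hF V.W _ N _ _ ((hR 4 V.W X p hol).2 N k' U Ω h ψ hψ x hx
    ((@h2 3 V.W _ _ _ V.ch V.mf X p hol (@h1 3 V.W _ _ _ V.ch V.mf X p P hol lb am)).2 x))
    _ _ _ none (fun l => some (.inr l)) σ
    (fun a => lbn_of (lb_fam hM (fun l => (hσ l).lb) a) _) (d1 k M _) ⟨P, lbn_of lb _, pos x⟩ s
    fun a ha => ?_
  obtain ⟨d, b, k1, k2, k3⟩ := hs a ha
  refine ⟨d, b, k1, k2, ?_⟩
  rw [@vec_eq _ _ (Classical.decEq _)] at k3
  simpa only [sub_sub, Pi.zero_apply, Pi.single_zero, Finset.sum_const_zero, add_zero] using k3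

end Vale.Agent.P277Z.Brg
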