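import Vale.Agent.P277Z.Brg.Sk2
import Vale.Agent.P277Z.Slc.Bridge
import Vale.Agent.P277Z.Lbd.Build

/-!
# P277, block BRG: the bundles of the components
-/

open scoped Manifold ContDiff Topology
open Set Filter
open Vale.Agent.P272.K Vale.Agent.P285.H281.FD Vale.Agent.P277
open Vale.Agent.P277Z.Slc

noncomputable section

namespace Vale.Agent.P277Z.Brg

namespace Dvv

variable {n : ℕ} {W : Type} [TopologicalSpace W] [ChartedSpace (Cm n) W]

theorem lb_hol {L : Bd W} (h : IsLB n L) {i j : L.ι} {x : W} (hi : x ∈ L.U i) (hj : x ∈ L.U j) :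
    Hol n (L.g i j) x := fun e he => (h.holo i j e x he hi hj).analyticAt

theorem g_self {L : Bd W} (h : IsLB n L) {i : L.ι} {x : W} (hi : x ∈ L.U i) : L.g i i x = 1 :=
  mul_left_cancel₀ (h.ne_zero i i x hi hi) (by rw [h.cocycle i i i x hi hi hi, mul_one])

theorem spsh_congr {φ φ' : W → ℝ} {x : W} (h : Spsh n φ x) (e : ∀ᶠ y in 𝓝 x, φ y = φ' y) :
    Spsh n φ' x := fun c hc => by
  have := Slc.tendsto_symm hc |>.eventually e
  exact ⟨(h c hc).1.congr_of_eventuallyEq (EventuallyEq.symm this),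
    cHess_congr this ▸ (h c hc).2⟩

/-- extension of a trivialisation from a dense set -/
theorem ext_sec [IsManifold 𝓘(ℂ, Cm n) ω W] {α : Type} [Fintype α] {B : α → Bd W}
    (hB : ∀ a, IsLB n (B a)) (m : α → ℤ) {D O : Set W} (hD : Dense D) (hO : IsOpen O)
    (f : (∀ a, (B a).ι) → W → ℂ)
    (key : ∀ I, ∀ y ∈ O, (∀ a, y ∈ (B a).U (I a)) → ∃ u, Hol n u y ∧ u y ≠ 0 ∧
      ∀ᶠ y' in 𝓝 y, y' ∈ D → f I y' = u y')
    (chg : ∀ I J, ∀ y ∈ O, y ∈ D → (∀ a, y ∈ (B a).U (I a)) → (∀ a, y ∈ (B a).U (J a)) →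
      f I y = (∏ a, (B a).g (I a) (J a) y ^ m a) * f J y) :
    ∃ θ : (∀ a, (B a).ι) → W → ℂ, ∀ y ∈ O, ∀ I, (∀ a, y ∈ (B a).U (I a)) →
      θ I y ≠ 0 ∧ Hol n (θ I) y ∧ ∀ J, (∀ a, y ∈ (B a).U (J a)) →
        θ I y = (∏ a, (B a).g (I a) (J a) y ^ m a) * θ J y := by
  have hU : ∀ (I : ∀ a, (B a).ι) y, (∀ a, y ∈ (B a).U (I a)) →
      ∀ᶠ y' in 𝓝 y, ∀ a, y' ∈ (B a).U (I a) := fun I y hy =>
    eventually_all.2 fun a => ((hB a).isOpen _).mem_nhds (hy a)
  refine ⟨fun I => Dv.ext D (f I), fun y hy I hI => ?_⟩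
  obtain ⟨u, hu, h0, h3⟩ := key I y hy hI
  refine ⟨fun h4 => h0 ((Dv.ext_at hD hu.continuousAt' h3).symm.trans h4),
    PH.HolF.congr hu (Dv.ext_eq hD hu h3), fun J hJ => ?_⟩
  obtain ⟨u, hu, -, h3⟩ := key J y hy hJ
  have hg := Cp.hol_prod (w := fun a => (B a).g (I a) (J a))
    (fun a => lb_hol (hB a) (hI a) (hJ a)) (fun a => (hB a).ne_zero _ _ _ (hI a) (hJ a)) m
  beta_reduce
  rw [Dv.ext_at hD hu.continuousAt' h3]
  refine Dv.ext_at hD (hg.continuousAt'.mul hu.continuousAt') ?_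
  filter_upwards [h3, hU I _ hI, hU J _ hJ, hO.mem_nhds hy] with z a1 a2 a3 a4 a5
  rw [Pi.mul_apply, ← a1 a5, chg I J z a4 a5 a2 a3]

end Dvv

open Dvv in
theorem divv : DIVV := by
  classical
  intro V O σ hO
  have : SecondCountableTopology V.W := ChartedSpace.secondCountable_of_sigmaCompact (Cm 4) V.W
  have hD := Cp.dense_iUnion fun l => (hO l).ex
  have hσ : ∀ l k y, y ∈ (O l).U k → y ∉ ⋃ l, V.G l → σ l k y ≠ 0 := fun l k y hk hy h =>
    hy (mem_iUnion.2 ⟨l, ((hO l).leq k y hk).mem.1 h⟩)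
  refine ⟨fun k M F => ⟨rfl, fun l l' h => by simpa using h, fun l => by simp, fun l =>
    .of_forall fun y i hi => ⟨((hO l).leq i y hi).hol, fun j hj => (hO l).sec.change i j y hi hj⟩,
    fun x _ k hk => ⟨fun l => ((hO l).leq _ x (hk l)).hol, fun e he => ?_⟩⟩,
    fun X p P c τ hP hτ hpos x => ?_, fun k m c M X L p ν t hp hM hL ht e x => ?_⟩
  · obtain ⟨ζ, h1, h2⟩ := snc_lg V x
    choose u h3 h4 h5 using fun l => stUnit 4 V.W (V.G l) x _ _ (h1 l) ((hO l).leq _ x (hk l))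
    have h6 : ∀ l : {l // σ l (k l) x = 0}, x ∈ V.G l := fun l =>
      ((hO l).leq _ x (hk l)).mem.1 l.2
    have h7 := ((h2.comp (fun l : {l // σ l (k l) x = 0} => ⟨l, h6 l⟩) fun l l' h =>
      Subtype.ext (Subtype.mk.inj h)).2 e he).units_smul fun l => Units.mk0 (u l x) (h4 l)
    have h8 : ∀ l : {l // σ l (k l) x = 0}, dd (σ l (k l)) e x = u l x • dd (ζ l) e x := fun l => by
      rw [dd_congr (h5 l) he, dd_mul (h3 l) (h1 l).hol ((h1 l).mem.2 (h6 l)) he]
    simp only [h8]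
    exact h7
  · let B : Option (Fin V.r) → Bd V.W := fun a => a.elim P O
    have hB : ∀ a, IsLB 4 (B a) := by
      rintro (_ | l)
      exacts [hP, (hO l).lb]
    obtain ⟨θ, hθ⟩ := ext_sec hB (fun a => a.elim 1 fun l => c l) hD isOpen_univ
      (fun I y => (∏ l, σ l (I (some l)) y ^ c l) / τ (I none) y) (fun I y _ hI => by
        obtain ⟨u, h1, h2, h3⟩ := hτ.div y (I none) _ (hI none) fun l =>
          (hO l).leq _ y (hI (some l))
        refine ⟨fun y => (u y)⁻¹, fun e he => (h1 e he).inv (by rwa [e.left_inv he.2]),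
          inv_ne_zero h2, ?_⟩
        filter_upwards [h3, eventually_all.2 fun l => ((hO l).lb.isOpen _).mem_nhds
          (hI (some l))] with z a1 a2 a3
        rw [a1, div_mul_cancel_right₀
          (Finset.prod_ne_zero_iff.2 fun l _ => pow_ne_zero _ (hσ l _ z (a2 l) a3))])
      fun I J y _ _ hI hJ => by
        rw [hτ.sec.change _ _ y (hI none) (hJ none), Fintype.prod_option, Finset.prod_congr rfl
          fun l _ => congrArg (· ^ c l) ((hO l).sec.change _ _ y (hI (some l)) (hJ (some l)))]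
        simp only [B, Option.elim, P277.Bd.inv, mul_pow, Finset.prod_mul_distrib, zpow_one,
          zpow_natCast, div_eq_mul_inv, mul_inv, inv_inv]
        ring
    obtain ⟨Λ, hΛ⟩ := hpos x
    choose i hi using hP.cover
    let jn : P.ι → (∀ l, (O l).ι) → ∀ a, (B a).ι := fun i k a => Option.rec i k a
    have hj : ∀ i k y, y ∈ P.U i → (∀ l, y ∈ (O l).U (k l)) → ∀ a, y ∈ (B a).U (jn i k a) := by
      rintro i k y h1 h2 (_ | l)
      exacts [h1, h2 l]
    have hl : ∀ y i i' k k', y ∈ P.U i → y ∈ P.U i' → (∀ l, y ∈ (O l).U (k l)) →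
        (∀ l, y ∈ (O l).U (k' l)) → Real.log (‖θ (jn i k) y‖ ^ 2) = Real.log (‖θ (jn i' k') y‖ ^ 2)
          + Real.log (‖P.g i i' y‖ ^ 2) + ∑ l, c l * Real.log (‖(O l).g (k l) (k' l) y‖ ^ 2) := by
      intro y i i' k k' a1 a2 a3 a4
      have b1 : ∀ l ∈ Finset.univ, ‖(O l).g (k l) (k' l) y‖ ^ c l ≠ 0 := fun l _ =>
        pow_ne_zero _ (norm_ne_zero_iff.2 ((hO l).lb.ne_zero _ _ y (a3 l) (a4 l)))
      have b2 : ‖θ (jn i k) y‖ = ‖P.g i i' y‖ * (∏ l, ‖(O l).g (k l) (k' l) y‖ ^ c l) *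
          ‖θ (jn i' k') y‖ := by
        rw [(hθ y trivial _ (hj i k y a1 a3)).2.2 _ (hj i' k' y a2 a4), Fintype.prod_option]
        simp only [B, jn, Option.elim, zpow_one, zpow_natCast, norm_mul, norm_prod, norm_pow]
      simp only [Real.log_pow]
      rw [b2, Real.log_mul (mul_ne_zero (norm_ne_zero_iff.2 (hP.ne_zero _ _ y a1 a2))
        (Finset.prod_ne_zero_iff.2 b1)) (norm_ne_zero_iff.2 (hθ y trivial _ (hj i' k' y a2 a4)).1),
        Real.log_mul (norm_ne_zero_iff.2 (hP.ne_zero _ _ y a1 a2)) (Finset.prod_ne_zero_iff.2 b1),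
        Real.log_prod b1]
      simp only [Real.log_pow, mul_add, Finset.mul_sum, mul_left_comm]
      ring
    refine ⟨fun k y => Λ (fun _ => i y) y - Real.log (‖θ (jn (i y) k) y‖ ^ 2), fun y hy => ⟨?_,
      .of_forall fun z k k' a1 a2 => ?_⟩⟩
    · obtain ⟨⟨i₀, h1, h2⟩, h3⟩ := hΛ y hy
      choose k hk using fun l => (hO l).lb.cover y
      have h4 : ∀ᶠ z in 𝓝 y, z ∈ P.U (i₀ ()) ∧ ∀ l, z ∈ (O l).U (k l) :=
        ((hP.isOpen _).eventually_mem (h1 ())).and
          (eventually_all.2 fun l => ((hO l).lb.isOpen _).mem_nhds (hk l))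
      refine ⟨k, hk, ?_⟩
      filter_upwards [h2, h4, (h3.and h4).eventually_nhds] with z a1 a2 a3
      obtain ⟨b1, b2, -⟩ := hθ z trivial _ (hj _ k z a2.1 a2.2)
      refine spsh_congr (a1.sub_log b2 b1) (a3.mono fun w ⟨d1, d2, d3⟩ => ?_)
      rw [d1 (fun _ => i w) i₀ (fun _ => hi w) fun _ => d2, hl w (i w) (i₀ ()) k k (hi w) d2 d3 d3]
      simp [fun l => g_self (hO l).lb (d3 l)]
    · rw [hl z (i z) (i z) k k' (hi z) (hi z) a1 a2, g_self hP (hi z)]
      simp only [neg_mul, Finset.sum_neg_distrib, norm_one, one_pow, Real.log_one]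
      ring
  · have hB : ∀ a, IsLB 4 (fam V M O a) := by
      rintro (_ | e | l)
      exacts [isLB_can, hM e, (hO l).lb]
    obtain ⟨i, hi⟩ := (hL e).cover x
    have hU := ((hL e).isOpen i).preimage hp.cont
    obtain ⟨θ, hθ⟩ := ext_sec hB (rel m c ν e) hD hU (fun I y =>
      t e i (I none, I (some (.inl e))) y * ∏ l, σ l (I (some (.inr l))) y ^ (-ν e l))
      (fun I y hy hI => by
        obtain ⟨ζ, hζ, h3⟩ := ht.div y
        obtain ⟨u, hu0, hu, h4⟩ := h3 e i (I none, I (some (.inl e))) hy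
          ⟨hI none, hI (some (.inl e))⟩
        choose w hw hw0 h5 using fun l =>
          stUnit 4 V.W (V.G l) y _ _ ((hO l).leq _ y (hI (some (.inr l)))) (hζ l)
        refine ⟨fun y => u y * ∏ l, w l y ^ ν e l, fun e' he => (hu e' he).mul
          (Cp.hol_prod hw hw0 _ e' he), mul_ne_zero hu0
          (Finset.prod_ne_zero_iff.2 fun l _ => zpow_ne_zero _ (hw0 l)), ?_⟩
        filter_upwards [h4, eventually_all.2 h5, eventually_all.2 fun l =>
          ((hO l).lb.isOpen _).mem_nhds (hI (some (.inr l)))] with y' a1 a2 a3 a4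
        rw [a1 a4, mul_assoc, ← Finset.prod_mul_distrib]
        refine congrArg _ (Finset.prod_congr rfl fun l _ => ?_)
        rw [a2 l, mul_zpow, zpow_neg, mul_inv_cancel_right₀ (zpow_ne_zero _ (hσ l _ y' (a3 l) a4))])
      fun I J y hy a hI hJ => by
        have h1 : (L e).g i i (p y) = 1 := mul_left_cancel₀ ((hL e).ne_zero i i _ hy hy)
          (by rw [(hL e).cocycle i i i _ hy hy hy, mul_one])
        rw [ht.change y e i i (J none, J (some (.inl e))) (I none, I (some (.inl e))) a hy hy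
          ⟨hJ none, hJ (some (.inl e))⟩ ⟨hI none, hI (some (.inl e))⟩, h1, Fintype.prod_option,
          Fintype.prod_sum_type,
          Finset.prod_congr rfl fun l _ => congrArg (· ^ (-ν e l))
            ((hO l).sec.change _ _ y (hI (some (.inr l))) (hJ (some (.inr l)))),
          Finset.prod_eq_single e (fun e' _ h => by simp [rel, vec, h]) (by simp)]
        simp only [rel, vec, fam, Bd.pow, Bd.mul, Pi.single_eq_same, mul_zpow, mul_pow,
          Finset.prod_mul_distrib, zpow_natCast, ← Nat.cast_mul, ← pow_mul, mul_comm (c e)]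
        ring
    refine ⟨θ, ?_, fun w hw k hk => (hθ w (by rwa [mem_preimage, hw]) k hk).1⟩
    filter_upwards [hU.mem_nhdsSet.2 (preimage_mono (singleton_subset_iff.2 hi))] with y hy I hI
      using (hθ y hy I hI).2

end Vale.Agent.P277Z.Brg
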