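import Vale.Agent.P277Z.Brg.Defs

/-!
# P277, block BRG: from connected fibres to all fibres
-/

open scoped Manifold ContDiff Topology
open Set Filter
open Vale.Agent.P272.K Vale.Agent.P285.H281.FD
open Vale.Agent.P277Z.Slc (lin Ind ForW)

noncomputable section

namespace Vale.Agent.P277Z.Brg

namespace Fib

variable {n N : ℕ} {W : Type} [TopologicalSpace W] [ChartedSpace (Cm n) W] {α κ : Type}
  {F C : Set W} {t : W → Cm N} {z : Cm N} {L : α → Bd W} {S : Set (α → ℤ)}

theorem lbn {L : Bd W} (h : LBN n F L) (hC : C ⊆ F) : LBN n C L :=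
  ⟨h.1, fun x hx => h.2 x (hC hx), h.3.filter_mono (nhdsSet_mono hC)⟩

theorem bnd {k₀ : α} {o : κ → α} {σ : ∀ l, (L (o l)).ι → W → ℂ} (h : Bnd n F L k₀ o σ)
    (hC : C ⊆ F) : Bnd n C L k₀ o σ :=
  ⟨h.1, h.2, h.3, fun l => (h.4 l).filter_mono (nhdsSet_mono hC), fun x hx => h.5 x (hC hx)⟩

variable [Fintype α]

theorem posR {c : α → ℝ} (h : PosR n F L c) (hC : C ⊆ F) : PosR n C L c :=
  h.imp fun _ k x hx => k x (hC hx)

/-- `FGL` with arbitrary index types -/
theorem fgl_of {J : Type} [Fintype J] (d : J → α → ℤ) (u : J → (∀ a, (L a).ι) → W → ℂ)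
    (h1 : ∀ j, d j ∈ S ∧ SecN n F (lin L (d j)) (u j))
    (h2 : ∀ a ∈ S, ∀ s, SecN n F (lin L a) s →
      ∃ (ι : Type) (T : Finset ι) (m : ι → J → ℕ) (c : ι → Cm N → ℂ),
        (∀ i ∈ T, ∑ j, m i j • d j = a ∧ AnalyticAt ℂ (c i) z) ∧ ∀ᶠ y in 𝓝ˢ F, ∀ k,
          (∀ a, y ∈ (L a).U (k a)) → s k y = ∑ i ∈ T, c i (t y) * ∏ j, u j k y ^ m i j) :
    FGL n F t z L S := by
  classical
  let e := (Fintype.equivFin J).symm
  refine ⟨_, d ∘ e, u ∘ e, fun j => h1 _, fun a ha s hs => ?_⟩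
  obtain ⟨ι, T, m, c, k1, k2⟩ := h2 a ha s hs
  refine ⟨T.image fun i => m i ∘ e, fun m' w => ∑ i ∈ T with m i ∘ e = m', c i w, fun m' hm => ?_,
    k2.mono fun y hy k hk => ?_⟩
  · obtain ⟨i, hi, rfl⟩ := Finset.mem_image.1 hm
    exact ⟨(e.sum_comp fun j => m i j • d j).trans (k1 i hi).1,
      Finset.analyticAt_fun_sum _ fun i hi => (k1 i (Finset.mem_filter.1 hi).1).2⟩
  · rw [hy k hk, ← Finset.sum_fiberwise_of_maps_to
      fun i hi => Finset.mem_image_of_mem (fun i => m i ∘ e) hi]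
    refine Finset.sum_congr rfl fun m' _ => ?_
    rw [Finset.sum_mul]
    refine Finset.sum_congr rfl fun i hi => ?_
    rw [← (Finset.mem_filter.1 hi).2, ← e.prod_comp]
    rfl

theorem glue {I : Type} [Fintype I] {C V : I → Set W} (hV : ∀ i, IsOpen (V i))
    (hC : ∀ i, C i ⊆ V i) (hd : Pairwise (Function.onFun Disjoint V)) (h0 : 0 ∈ S)
    (h : ∀ i, FGL n (C i) (fun y => t y - z) 0 L S) : FGL n (⋃ i, C i) t z L S := by
  classical
  choose q d u h1 h2 using h
  have nV : ∀ i, ∀ᶠ y in 𝓝ˢ (C i), y ∈ V i := fun i => (hV i).mem_nhdsSet.2 (hC i)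
  have ext : ∀ i a s, SecN n (C i) (lin L a) s →
      SecN n (⋃ i, C i) (lin L a) fun k => (V i).indicator (s k) := fun i a s hs => by
    rw [SecN, nhdsSet_iUnion, eventually_iSup]
    intro i'
    by_cases e : i' = i
    · subst e
      filter_upwards [hs, nV i'] with y k1 k2 k hk
      refine ⟨(k1 k hk).1.congr ?_, fun j hj => ?_⟩
      · filter_upwards [(hV i').mem_nhds k2] with w hw using (indicator_of_mem hw _).symm
      · simp only [indicator_of_mem k2]
        exact (k1 k hk).2 j hj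
    · filter_upwards [nV i'] with y k2 k hk
      refine ⟨Hol.congr (a := fun _ => 0) (fun _ _ => analyticAt_const) ?_, fun j hj => ?_⟩
      · filter_upwards [(hV i').mem_nhds k2] with w hw
          using (indicator_of_notMem (disjoint_left.1 (hd e) hw) _).symm
      · simp only [indicator_of_notMem (disjoint_left.1 (hd e) k2), mul_zero]
  refine fgl_of (J := Σ i, Option (Fin (q i))) (fun j => j.2.elim 0 (d j.1))
    (fun j k => (V j.1).indicator (j.2.elim (fun _ => 1) fun j' => u j.1 j' k)) ?_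
    fun a ha s hs => ?_
  · rintro ⟨i, _ | j⟩
    · exact ⟨h0, ext i _ (fun _ _ => 1) (.of_forall fun y k _ =>
        ⟨fun _ _ => analyticAt_const, fun j _ => by simp [lin]⟩)⟩
    · exact ⟨(h1 i j).1, ext i _ _ (h1 i j).2⟩
  choose T c k1 k2 using fun i =>
    h2 i a ha s (hs.filter_mono (nhdsSet_mono (subset_iUnion C i)))
  refine ⟨Σ i, Fin (q i) → ℕ, Finset.univ.sigma T, fun m j => Pi.single
    (M := fun i => Option (Fin (q i)) → ℕ) m.1 (fun o => o.elim 1 m.2) j.1 j.2,
    fun m w => c m.1 m.2 (w - z), fun ⟨i, m⟩ hm => ?_, ?_⟩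
  · obtain ⟨e1, e2⟩ := k1 i m (Finset.mem_sigma.1 hm).2
    refine ⟨?_, AnalyticAt.fun_comp_of_eq e2 (analyticAt_id.sub analyticAt_const) (sub_self z)⟩
    rw [Fintype.sum_sigma, Fintype.sum_eq_single i fun i' e => by simp [Pi.single_eq_of_ne e]]
    simpa using e1
  rw [nhdsSet_iUnion, eventually_iSup]
  intro i
  filter_upwards [k2 i, nV i] with y e1 e2 k hk
  have e : ∀ i' (m : Fin (q i') → ℕ), ∏ j : Σ i, Option (Fin (q i)),
      (V j.1).indicator (j.2.elim (fun _ => 1) fun j' => u j.1 j' k) y ^ Pi.single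
        (M := fun i => Option (Fin (q i)) → ℕ) i' (fun o => o.elim 1 m) j.1 j.2 =
      (V i').indicator (fun y => ∏ j, u i' j k y ^ m j) y := fun i' m => by
    rw [Fintype.prod_sigma, Fintype.prod_eq_single i' fun i'' e => by simp [Pi.single_eq_of_ne e]]
    by_cases hy : y ∈ V i' <;> simp [hy]
  simp only [Finset.sum_sigma, e]
  rw [Fintype.sum_eq_single i fun i' e => by
    simp [indicator_of_notMem (disjoint_right.1 (hd e) e2)], e1 k hk]
  simp only [indicator_of_mem e2]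

end Fib

open Fib in
theorem fgb_of {n : ℕ} (h : FGC n) : FGB n := by
  intro W _ _ _ _ _ F N t z hF α κ _ _ L k₀ o σ hL hB hP s hs
  let I := {C | ∃ w ∈ F, C = connectedComponentIn F w}
  have : Fintype I := hF.fin.fintype
  have sub : ∀ C : I, C.1 ⊆ F := fun ⟨_, _, _, e⟩ =>
    e.subset.trans (connectedComponentIn_subset _ _)
  have cpt : ∀ C : I, IsCompact C.1 := fun C => by
    obtain ⟨w, hw, e⟩ := C.2
    have := isCompact_iff_compactSpace.1 hF.cpt
    rw [e, connectedComponentIn_eq_image hw]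
    exact isClosed_connectedComponent.isCompact.image continuous_subtype_val
  have conn : ∀ C : I, IsConnected C.1 := fun ⟨_, _, hw, e⟩ =>
    e ▸ isConnected_connectedComponentIn_iff.2 hw
  have un : ⋃ C : I, C.1 = F := (iUnion_subset sub).antisymm fun w hw =>
    mem_iUnion.2 ⟨⟨_, w, hw, rfl⟩, mem_connectedComponentIn hw⟩
  obtain ⟨V, h1, h2⟩ := Pairwise.exists_mem_filter_of_disjoint (l := fun C : I => 𝓝ˢ C.1)
    fun C C' e => (SeparatedNhds.of_isCompact_isCompact (cpt C) (cpt C') (by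
      obtain ⟨w, -, k⟩ := C.2
      obtain ⟨w', -, k'⟩ := C'.2
      rw [Ne, Subtype.ext_iff, k, k'] at e
      rw [k, k']
      exact disjoint_left.2 fun y a b => e
        ((connectedComponentIn_eq a).trans (connectedComponentIn_eq b).symm))).disjoint_nhdsSet
  rw [← un]
  refine glue (fun C => isOpen_interior) (fun C => subset_interior_iff_mem_nhdsSet.2 (h1 C))
    (fun C C' e => (h2 e).mono interior_subset interior_subset) (zero_mem _) fun C => ?_
  refine h N ⟨W, C.1, cpt C, conn C, fun y => t y - z, fun x hx i e he =>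
    (hF.hol x (sub C hx) i e he).sub analyticAt_const, ?_⟩ α κ L k₀ o σ
    (fun a => lbn (hL a) (sub C)) (bnd hB (sub C))
    (hP.imp fun _ k => ⟨lbn k.1 (sub C), posR k.2 (sub C)⟩) s fun a ha =>
      (hs a ha).imp fun _ k => k.imp fun _ k => ⟨k.1, k.2.1, posR k.2.2 (sub C)⟩
  filter_upwards [hF.fib.filter_mono (nhdsSet_mono (sub C)), h1 C] with y e1 e2
  rw [sub_eq_zero, e1]
  refine ⟨fun hy => ?_, fun hy => sub C hy⟩
  obtain ⟨C', k⟩ := mem_iUnion.1 (un ▸ hy)
  by_contra e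
  exact disjoint_left.1 (h2 (fun e' : C = C' => e (e' ▸ k))) e2 (subset_of_mem_nhdsSet (h1 C') k)

end Vale.Agent.P277Z.Brg
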