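import Vale.Agent.P277Z.Brg.Calc
import Vale.Agent.P277Z.Van.Vol

/-!
# P277, block BRG: positivity is open, and stable under nef classes
-/

open scoped Manifold ContDiff Topology ComplexOrder
open Set Filter
open Vale.Agent.P272.K Vale.Agent.P285.H281.FD
open Vale.Agent.P277Z.Slc (lin Ind ForW)

noncomputable section

namespace Vale.Agent.P277Z.Brg

open Pos Ps Cl

variable {n : ℕ} {W : Type} [TopologicalSpace W] [ChartedSpace (Cm n) W] {α : Type}
  {F : Set W} {x : W} [IsManifold 𝓘(ℂ, Cm n) ω W]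

/-- metrics exist near a compact set -/
theorem LBN.exists_met [T2Space W] [SecondCountableTopology W] {L : Bd W} (hL : LBN n F L)
    (hF : IsCompact F) : ∃ ψ, MetN n F L ψ := by
  have := ChartedSpace.locallyCompactSpace (Cm n) W
  obtain ⟨V, hV, hFV, h⟩ := mem_nhdsSet_iff_exists.1 hL.near
  obtain ⟨χ, hχ, hs, -, hl, h1⟩ := Van.exists_pou (d := n)
    (fun o : Option L.ι => o.elim Fᶜ fun i => L.U i ∩ V)
    (fun o => by
      cases o with
      | none => exact hF.isClosed.isOpen_compl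
      | some i => exact (hL.isOpen i).inter hV)
    fun y => by
      by_cases hy : y ∈ F
      · obtain ⟨i, hi⟩ := hL.cover y hy
        exact ⟨some i, hi, hFV hy⟩
      · exact ⟨none, hy⟩
  refine ⟨fun i y => ∑ᶠ o, χ o y • o.elim 0 fun a => Real.log (‖L.g i a y‖ ^ 2), ?_⟩
  filter_upwards [hV.mem_nhdsSet.2 hFV, (isClosed_tsupport (χ none)).isOpen_compl.mem_nhdsSet.2
    fun y hy k => hs none k hy] with y y1 y2 i hi
  refine ⟨fun e he => Van.contDiffAt_patch hχ hs hl he
    (F := fun o z => o.elim 0 fun a => Real.log (‖L.g i a (e.symm z)‖ ^ 2)) fun o ho => ?_,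
    fun j hj => ?_⟩
  · cases o with
    | none => exact contDiffAt_const
    | some a => exact (flatAt_log (h y1 i a hi ho.1).1 (h y1 i a hi ho.1).2.1 e he).1
  obtain ⟨t, ht⟩ := Van.finsum_loc hl y
  have hf : ∀ G : Option L.ι → ℝ, ∑ᶠ a, χ a y • G a = ∑ a ∈ t, χ a y * G a := fun G =>
    finsum_eq_sum_of_support_subset _ fun a ha => by
      by_contra k
      exact ha (by show χ a y • G a = 0; rw [ht.self_of_nhds a k, zero_smul])
  have h2 : ∑ a ∈ t, χ a y = 1 := by simpa [h1 y] using (hf fun _ => 1).symm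
  rw [hf, hf, ← one_mul (Real.log (‖L.g i j y‖ ^ 2)), ← h2, Finset.sum_mul,
    ← Finset.sum_add_distrib]
  refine Finset.sum_congr rfl fun o _ => ?_
  by_cases hz : χ o y = 0
  · simp [hz]
  cases o with
  | none => exact absurd (subset_tsupport _ hz) y2
  | some a =>
    have ha := (hs _ (subset_tsupport _ hz)).1
    have k1 := (h y1 i j hi hj).2
    have k2 := (h y1 j a hj ha).2.1
    simp only [Option.elim_some]
    rw [← mul_add, ← k1.2 a ha, norm_mul, mul_pow, Real.log_mul (by have := k1.1; positivity)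
      (by positivity), add_comm]

/-- a positive form dominates a small multiple of a Hermitian metric -/
theorem Cl.dom {u : W → ℝ} (hu : ∀ᶠ y in 𝓝 x, Spsh n u y)
    {χ : Chart n W → Cm n → Matrix (Fin n) (Fin n) ℂ} (hχ : IsHermitian χ) :
    ∀ᶠ p : ℝ × W in 𝓝 (0, x), ∀ e : Chart n W, At e p.2 →
      (cHess (fun z => u (e.symm z)) (e p.2) + (p.1 : ℂ) • χ e (e p.2)).PosDef := by
  have he := at_chart (n := n) x
  set e := chartAt (Cm n) x
  obtain ⟨ε, hε, h⟩ := N.posDef_of_near (hu.self_of_nhds e he).2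
  have h1 : ContinuousAt (fun p : ℝ × W => e p.2) (0, x) :=
    (e.continuousAt he.2).comp continuousAt_snd
  have h2 : ∀ i j, ∀ᶠ p : ℝ × W in 𝓝 (0, x), ‖(cHess (fun z => u (e.symm z)) (e p.2) +
      (p.1 : ℂ) • χ e (e p.2)) i j - cHess (fun z => u (e.symm z)) (e x) i j‖ ≤ ε := fun i j => by
    have k1 := (INT.smooth_cHess (hu.self_of_nhds e he).1 i j).continuousAt.comp_of_eq h1 rfl
    have k2 := (hχ.smooth e x he i j).continuousAt.comp_of_eq h1 rfl
    have k3 := ((k1.add ((Complex.continuous_ofReal.continuousAt.comp continuousAt_fst).mul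
      k2)).sub (continuousAt_const (y := cHess (fun z => u (e.symm z)) (e x) i j))).norm
    exact k3.eventually (Iic_mem_nhds (by simpa using hε))
  filter_upwards [eventually_all.2 fun i => eventually_all.2 (h2 i), continuousAt_snd.eventually hu,
    continuousAt_snd.eventually (e.open_source.mem_nhds he.2)] with p k1 k2 k4 e' he'
  have k5 : At e p.2 := ⟨he.1, k4⟩
  have k6 := posDef_form (h _ ((cHess_isHermitian (two (k2 e k5).1)).add
    ((hχ.posDef e _ k5).isHermitian.smul (by simp [IsSelfAdjoint]))) k1) (jacM_isUnit he' k5)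
  rwa [cHess_chart he' k5 (two (k2 e k5).1), hχ.change e' e _ he' k5, ← Matrix.smul_mul,
    ← Matrix.mul_smul, ← Matrix.add_mul, ← Matrix.mul_add]

variable [Fintype α] [DecidableEq α] {L : α → Bd W} {c : α → ℝ} {Λ : (∀ a, (L a).ι) → W → ℝ}

omit [IsManifold 𝓘(ℂ, Cm n) ω W] in
theorem Cl.twist (h : PosX n L c Λ x) {a : α} {ψ : (L a).ι → W → ℝ} {r : ℝ}
    (h1 : ∀ᶠ y in 𝓝 x, ∀ i, y ∈ (L a).U i → ∀ j, y ∈ (L a).U j →
      ψ i y = ψ j y + Real.log (‖(L a).g i j y‖ ^ 2))
    (h2 : ∃ k, (∀ a, x ∈ (L a).U (k a)) ∧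
      ∀ᶠ y in 𝓝 x, Spsh n (fun z => Λ k z + r * ψ (k a) z) y) :
    PosX n L (c + Pi.single a r) (fun k z => Λ k z + r * ψ (k a) z) x := by
  refine ⟨h2, ?_⟩
  filter_upwards [h.chg, h1] with y b1 b2 k k' hk hk'
  have e := sum_single (fun _ : Unit => a) (fun _ => r)
    fun i => Real.log (‖(L i).g (k i) (k' i) y‖ ^ 2)
  simp only [Fintype.sum_unique] at e
  simp only [b1 k k' hk hk', b2 _ (hk a) _ (hk' a), Pi.add_apply, add_mul, Finset.sum_add_distrib,
    e]
  ring

theorem Cl.opn_one [T2Space W] [SecondCountableTopology W] (hF : IsCompact F)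
    (hL : ∀ a, LBN n F (L a)) (h : PosR n F L c) (a : α) :
    ∀ᶠ r in 𝓝 (0 : ℝ), PosR n F L (c + Pi.single a r) := by
  obtain ⟨Λ, h⟩ := h
  obtain ⟨ψ, hψ⟩ := (hL a).exists_met hF
  refine (hF.eventually_forall_of_forall_eventually (x₀ := (0 : ℝ)) (P := fun r y =>
    PosX n L (c + Pi.single a r) (fun k z => Λ k z + r * ψ (k a) z) y) fun x hx => ?_).mono
      fun r k => ⟨_, k⟩
  obtain ⟨k, h1, h2⟩ := (h x hx).pos
  filter_upwards [(spsh_open h2 (v := ψ (k a)) (((pt hψ hx).and (fr hL h1)).mono fun y b =>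
    (b.1 _ (b.2 a)).1)).eventually_nhds, continuousAt_snd.eventually ((h x hx).near hL),
    continuousAt_snd.eventually (fr hL h1), continuousAt_snd.eventually (pt hψ hx).eventually_nhds]
    with p b1 b2 b3 b4
  exact twist b2 (b4.mono fun y b i hi => (b i hi).2)
    ⟨k, b3, ((Continuous.prodMk_right p.1).tendsto _).eventually b1⟩

/-- positivity is open -/
theorem PosR.opn [T2Space W] [SecondCountableTopology W] (hF : IsCompact F)
    (hL : ∀ a, LBN n F (L a)) (h : PosR n F L c) : ∀ᶠ c' in 𝓝 c, PosR n F L c' := by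
  set N : ℝ := Fintype.card α + 1 with hN
  have h0 : 0 < N := by positivity
  have h1 : ∀ a, ∀ᶠ c' in 𝓝 c, PosR n F L (c + Pi.single a (N * (c' a - c a))) := fun a =>
    (Continuous.tendsto' (f := fun c' : α → ℝ => N * (c' a - c a)) (by fun_prop) c 0
      (by simp)).eventually (opn_one hF hL h a)
  filter_upwards [eventually_all.2 h1] with c' k
  have h2 : ∀ T : Finset α, PosR n F L (c + ∑ a ∈ T, (c + Pi.single a (N * (c' a - c a)))) :=
    fun T => by
    induction T using Finset.induction_on with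
    | empty => simpa using h
    | insert a T ha ih =>
      rw [Finset.sum_insert ha, add_left_comm]
      exact (k a).add hL ih
  have h3 := (h2 Finset.univ).smul (inv_pos.2 h0)
  have e : N⁻¹ • (c + ∑ a, (c + Pi.single a (N * (c' a - c a)))) = c' := funext fun i => by
    simp only [Finset.sum_add_distrib, Pi.smul_apply, Pi.add_apply, Finset.sum_apply,
      Finset.sum_pi_single, Finset.mem_univ, if_true, Finset.sum_const, Finset.card_univ,
      smul_eq_mul]
    rw [nsmul_eq_mul]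
    field_simp
    rw [hN]
    ring
  rwa [e] at h3

/-- adding a nef class -/
theorem PosR.nef (hF : IsCompact F) (hL : ∀ a, LBN n F (L a))
    {χ : Chart n W → Cm n → Matrix (Fin n) (Fin n) ℂ} {a : α} {r : ℝ} (hχ : IsHermitian χ)
    (hn : Nef χ (L a)) (hr : 0 ≤ r) (h : PosR n F L c) : PosR n F L (c + Pi.single a r) := by
  rcases hr.eq_or_lt with rfl | hr
  · simpa using h
  obtain ⟨Λ, h⟩ := h
  have h1 := hF.eventually_forall_of_forall_eventually (x₀ := (0 : ℝ)) (P := fun s y =>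
    ∃ k, (∀ a, y ∈ (L a).U (k a)) ∧ ∀ᶠ z in 𝓝 y, Spsh n (Λ k) z ∧ ∀ e : Chart n W, At e z →
      (cHess (fun w => Λ k (e.symm w)) (e z) + (s : ℂ) • χ e (e z)).PosDef) fun x hx => by
    obtain ⟨k, h1, h2⟩ := (h x hx).pos
    filter_upwards [(dom h2 hχ).eventually_nhds, continuousAt_snd.eventually (fr hL h1),
      continuousAt_snd.eventually h2.eventually_nhds] with p b1 b2 b3
    exact ⟨k, b2, b3.and (((Continuous.prodMk_right p.1).tendsto _).eventually b1)⟩
  obtain ⟨s, h2, (h3 : s < 0)⟩ := ((h1.filter_mono nhdsWithin_le_nhds).and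
    (self_mem_nhdsWithin (s := Iio 0))).exists
  obtain ⟨ψ, h4, h5⟩ := hn (-s / r) (div_pos (neg_pos.2 h3) hr)
  refine ⟨_, fun x hx => twist (h x hx) (r := r)
    (.of_forall fun y i hi j hj => h4.change i j y hi hj) ?_⟩
  obtain ⟨k, h6, h7⟩ := h2 x hx
  refine ⟨k, h6, ?_⟩
  filter_upwards [h7, fr hL h6] with y b1 b2 e he
  have b3 := h4.smooth _ e y he (b2 a)
  refine ⟨(b1.1 e he).1.add (contDiffAt_const.mul b3), ?_⟩
  have b4 := (b1.2 e he).add_posSemidef
    ((h5 _ e y he (b2 a)).smul (Complex.zero_le_real.2 hr.le))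
  rw [cHess_add (two (b1.1 e he).1) (two (contDiffAt_const.mul b3)), cHess_const_mul _ (two b3)]
  rwa [smul_add, smul_smul, ← Complex.ofReal_mul, mul_div_cancel₀ _ hr.ne', add_comm (_ • cHess _ _),
    add_assoc, ← add_assoc ((s : ℂ) • _), ← add_smul, Complex.ofReal_neg, add_neg_cancel, zero_smul,
    zero_add] at b4

/-- ROW OPN -/
theorem opnR : OPN := fun _ _ _ _ _ _ _ _ _ _ _ _ hF hL =>
  ⟨fun a => (hL a).exists_met hF, fun _ => PosR.opn hF hL, fun _ _ _ _ => PosR.nef hF hL⟩

theorem opn (_ : CALC) : OPN := opnR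

end Vale.Agent.P277Z.Brg
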