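import Vale.Agent.P277Z.Brg.Sk2
import Vale.Agent.P277Z.Coh.Vap

/-!
# P277, block BRG: relatively ample bundles are relatively positive
-/

open scoped Manifold ContDiff Topology ComplexOrder
open Set Filter
open Vale.Agent.P272.K Vale.Agent.P285.H281.FD Vale.Agent.P277
open Vale.Agent.P277.PH (HolF)

noncomputable section

namespace Vale.Agent.P277Z.Brg

namespace Ramp

section kl
variable {n : ℕ} {E F : Type} [NormedAddCommGroup E] [NormedSpace ℂ E] [NormedAddCommGroup F]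
  [NormedSpace ℂ F] {z v : Cm n}

/-- the differential of `f` at `z` kills `v` -/
def Kl (z v : Cm n) (f : Cm n → E) : Prop := DifferentiableAt ℂ f z ∧ fderiv ℂ f z v = 0

theorem Kl.congr {f g : Cm n → E} (h : Kl z v f) (e : g =ᶠ[𝓝 z] f) : Kl z v g :=
  ⟨h.1.congr_of_eventuallyEq e, by rw [e.fderiv_eq]; exact h.2⟩

theorem Kl.comp {f : Cm n → E} (h : Kl z v f) {H : E → F} (hH : AnalyticAt ℂ H (f z)) :
    Kl z v fun y => H (f y) :=
  ⟨hH.differentiableAt.comp z h.1, by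
    rw [fderiv_fun_comp z hH.differentiableAt h.1, ContinuousLinearMap.comp_apply, h.2, map_zero]⟩

theorem Kl.prod {f : Cm n → E} {g : Cm n → F} (h : Kl z v f) (h' : Kl z v g) :
    Kl z v fun y => (f y, g y) :=
  ⟨h.1.prodMk h'.1, by rw [h.1.fderiv_prodMk h'.1]; exact Prod.ext h.2 h'.2⟩

theorem Kl.pi {N : ℕ} {f : Fin N → Cm n → ℂ} (h : ∀ a, Kl z v (f a)) :
    Kl z v fun y a => f a y :=
  ⟨differentiableAt_pi.2 fun a => (h a).1, by
    rw [fderiv_pi fun a => (h a).1]; exact funext fun a => (h a).2⟩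

end kl

variable {n : ℕ} {W : Type} [TopologicalSpace W] [ChartedSpace (Cm n) W]

theorem hol_model {X : CSp} {p : W → X.pt} (hp : Pj.HolTo n X p) {N k : ℕ} {V : Set X.pt}
    {Ω : Set (Cm N)} {h : Fin k → Cm N → ℂ} {ψ : X.pt → Cm N} (hm : IsModel X.Hol V Ω h ψ) {w : W}
    (hw : p w ∈ V) (a : Fin N) : HolF n (fun y => ψ (p y) a) w :=
  hp.hol w (fun x => ψ x a) ((hm.hol _ hw _).2 ⟨fun z => z a,
    (ContinuousLinearMap.proj a : Cm N →L[ℂ] ℂ).analyticAt _, .rfl⟩)

theorem posX_ev {α : Type} [Fintype α] {L : α → Bd W} (hL : ∀ a, IsLB n (L a)) {c : α → ℝ} {Λ}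
    {x : W} (h : PosX n L c Λ x) : ∀ᶠ y in 𝓝 x, PosX n L c Λ y := by
  obtain ⟨⟨k, h1, h2⟩, h3⟩ := h
  filter_upwards [eventually_all.2 fun a => ((hL a).isOpen _).eventually_mem (h1 a),
    h2.eventually_nhds, h3.eventually_nhds] with y a b c using ⟨⟨k, a, b⟩, c⟩

theorem lbn {L : Bd W} (h : IsLB n L) (F : Set W) : LBN n F L :=
  ⟨h.isOpen, fun x _ => h.cover x, .of_forall fun y i j a b =>
    ⟨fun e he => (h.holo i j e y he a b).analyticAt, h.ne_zero i j y a b,
      fun k c => h.cocycle i j k y a b c⟩⟩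

end Ramp

open Ramp

theorem ramp : RAMP := by
  intro n W _ _ _ _ _ X p P hp hP hA x
  obtain ⟨V, k, N, s, hV, hx, hk, hs, hnz, -, him⟩ := hA x
  obtain ⟨N₀, k₀, V₀, Ω, h, ψ, hx₀, hm⟩ := X.model x
  let c : Option (Fin N₀) → W → ℂ := fun a w => a.elim 1 (ψ (p w))
  have hc : ∀ a w, p w ∈ V₀ → HolF n (c a) w := fun a w hw => by
    cases a with
    | none => exact HolF.const 1
    | some a => exact hol_model hp hm hw a
  have hpos : ∀ w i, p w ∈ V → w ∈ P.U i →
      0 < ∑ q : Option (Fin N₀) × Fin (N + 1), ‖c q.1 w * s q.2 i w‖ ^ 2 := fun w i hw hi => by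
    obtain ⟨l, hl⟩ := hnz w i hw hi
    exact Finset.sum_pos' (fun _ _ => sq_nonneg _) ⟨(none, l), Finset.mem_univ _,
      pow_pos (norm_pos_iff.2 (mul_ne_zero one_ne_zero hl)) 2⟩
  have hk0 : (0 : ℝ) < k := Nat.cast_pos.2 hk
  refine ⟨fun i w => (k : ℝ)⁻¹ * Real.log (∑ q : Option (Fin N₀) × Fin (N + 1),
    ‖c q.1 w * s q.2 (i ()) w‖ ^ 2), fun w (hw : p w = x) => ?_⟩
  have hO : ∀ᶠ y in 𝓝 w, p y ∈ V ∧ p y ∈ V₀ :=
    hp.cont.continuousAt.eventually ((hV.inter hm.isOpen).mem_nhds (hw ▸ ⟨hx, hx₀⟩))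
  obtain ⟨i, hi⟩ := hP.cover w
  refine ⟨⟨fun _ => i, fun _ => hi, ?_⟩, ?_⟩
  · filter_upwards [hO, (hP.isOpen i).mem_nhds hi] with y ⟨a, b⟩ hi e he
    have hF : ∀ q : Option (Fin N₀) × Fin (N + 1),
        AnalyticAt ℂ (fun z => c q.1 (e.symm z) * s q.2 i (e.symm z)) (e y) := fun q =>
      ((hc q.1 y b).mul ((hs q.2).holo i y a hi)) e he
    have hy : e.symm (e y) = y := e.left_inv he.2
    have h1 : ContDiffAt ℝ ∞ (fun z => Real.log (∑ q : Option (Fin N₀) × Fin (N + 1),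
        ‖c q.1 (e.symm z) * s q.2 i (e.symm z)‖ ^ 2)) (e y) :=
      (ContDiffAt.sum fun q _ => (((hF q).contDiffAt (n := ∞)).restrict_scalars ℝ).norm_sq
        ℝ).log (by rw [hy]; exact (hpos y i a hi).ne')
    refine ⟨contDiffAt_const.mul h1, ?_⟩
    rw [C2.cHess_const_mul _ (h1.of_le (by norm_cast))]
    obtain ⟨l, hl⟩ := hnz y i a hi
    have hl' : c none (e.symm (e y)) * s l i (e.symm (e y)) ≠ 0 := by
      rw [hy]; exact mul_ne_zero one_ne_zero hl
    refine (Coh.fs_pos hF (k := (none, l)) hl' fun v hv => funext fun j => ?_).smul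
      (Complex.zero_lt_real.2 (inv_pos.2 hk0))
    have ht : Tendsto e.symm (𝓝 (e y)) (𝓝 y) := e.tendsto_symm he.2
    have h2 : ∀ q : Option (Fin N₀) × Fin (N + 1), Kl (e y) v fun z =>
        c q.1 (e.symm z) * s q.2 i (e.symm z) / (c none (e.symm z) * s l i (e.symm z)) := fun q =>
      ⟨((hF q).fun_div (hF (none, l)) hl').differentiableAt, hv q⟩
    have h3 : Kl (e y) v fun z => ψ (p (e.symm z)) := Kl.pi fun a => (h2 (some a, l)).congr (by
      filter_upwards [(hF (none, l)).continuousAt.eventually_ne hl'] with z hz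
      simp only [c, Option.elim, one_mul] at hz ⊢
      rw [mul_div_cancel_right₀ _ hz])
    obtain ⟨M, g, G, g1, g2, g3⟩ := him y i l a hi hl (fun y => e y j)
      fun e' he' => analyticAt_pi_iff.1 (PH.chg_analyticAt he he') j
    have h4 : ∀ a, Kl (e y) v fun z => g a (p (e.symm z)) := fun a => by
      obtain ⟨G', k1, k2⟩ := (hm.hol _ b _).1 (g1 a)
      exact (h3.comp (H := G') (by rwa [hy])).congr
        ((hp.cont.continuousAt.tendsto.comp ht).eventually k2)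
    have h5 := (((Kl.pi h4).prod (Kl.pi fun m => (h2 (none, m)).congr (g := fun z =>
      s m i (e.symm z) / s l i (e.symm z)) (.of_forall fun z => by simp [c]))).comp (H := G)
      (by rwa [hy])).congr (g := fun z => z j) (by
        filter_upwards [ht.eventually g3, e.eventually_right_inverse' he.2] with z k1 k2
        rw [← k1, k2])
    have h6 := h5.2
    rwa [(hasFDerivAt_apply j (e y)).fderiv] at h6
  · filter_upwards [hO] with y ⟨a, _⟩ i j hi hj
    have h1 : ∑ q : Option (Fin N₀) × Fin (N + 1), ‖c q.1 y * s q.2 (i ()) y‖ ^ 2 =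
        (‖P.g (i ()) (j ()) y‖ ^ 2) ^ k *
          ∑ q : Option (Fin N₀) × Fin (N + 1), ‖c q.1 y * s q.2 (j ()) y‖ ^ 2 := by
      rw [Finset.mul_sum]
      refine Finset.sum_congr rfl fun q _ => ?_
      rw [(hs q.2).change _ _ y a (hi ()) (hj ()), mul_left_comm, norm_mul, mul_pow, ← pow_mul,
        mul_comm 2 k, pow_mul, ← norm_pow (P.g _ _ y) k]
      rfl
    rw [h1, Real.log_mul (pow_ne_zero _ (pow_ne_zero 2 (norm_ne_zero_iff.2
      (hP.ne_zero _ _ y (hi ()) (hj ()))))) (hpos y _ a (hj ())).ne', Real.log_pow,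
      Fintype.sum_unique (ι := Unit), mul_add, inv_mul_cancel_left₀ hk0.ne', one_mul, add_comm]

theorem rpo (h : OPN) : RPO := by
  intro n W _ _ _ _ _ X p hp
  classical
  have := ChartedSpace.secondCountable_of_sigmaCompact (Cm n) W
  refine ⟨fun α _ L hL c hc => ?_, fun N k V Ω h ψ hm x hx hf => ⟨(isClosed_singleton.preimage
    hp.cont).isCompact, fun w (hw : p w = x) => hol_model hp hm (hw ▸ hx), ?_, hf⟩⟩
  · have h1 : ∀ x, ∃ K ∈ 𝓝 x, ∀ᶠ c' in 𝓝 c, PosR n (p ⁻¹' K) L c' := fun x => by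
      obtain ⟨Λ, hΛ⟩ := hc x
      obtain ⟨K, k1, k2, k3⟩ := exists_mem_nhds_isClosed_subset
        (hp.cont.isClosedMap.eventually_nhds_fiber x fun w hw => posX_ev hL (hΛ w hw))
      exact ⟨K, k1, (h n W _ α L (k2.preimage hp.cont).isCompact fun a => lbn (hL a) _).2.1 c
        ⟨Λ, fun w hw => k3 hw w rfl⟩⟩
    choose K k1 k2 using h1
    obtain ⟨t, ht⟩ := CompactSpace.elim_nhds_subcover K k1
    filter_upwards [(eventually_all_finset t).2 fun x _ => k2 x] with c' a x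
    obtain ⟨y, b, d⟩ := mem_iUnion₂.1 (ht.ge (mem_univ x))
    exact (a y b).imp fun Λ hΛ w (hw : p w = x) => hΛ w (show p w ∈ K y from hw ▸ d)
  · filter_upwards [(hm.isOpen.preimage hp.cont).mem_nhdsSet.2
      fun w (hw : p w = x) => show p w ∈ V from hw ▸ hx] with y hy
    exact ⟨fun e => congrArg Subtype.val (hm.emb.injective (a₁ := ⟨_, hy⟩) (a₂ := ⟨_, hx⟩) e),
      fun e => congrArg ψ e⟩

end Vale.Agent.P277Z.Brg
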