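import Vale.Agent.P277Z.Brg.Defs
import Vale.Agent.P277Z.Lbd.Sec
import Vale.Agent.P277Z.FI.Dv
import Vale.Agent.P277Z.FI.Jac
import Vale.Agent.P277Z.Slc.Basic
import Vale.Agent.P277Z.Bert.Api

/-!
# P277, block BRG: divisors of sections with simple normal crossings
-/

open scoped Topology
open Set Filter
open Vale.Agent.P272.K Vale.Agent.P285.H281.FD
open Vale.Agent.P277Z.Slc (Ind dd)
open Vale.Agent.P297 (Place)
open Vale.Agent.P297Z

noncomputable section

namespace Vale.Agent.P277Z.Brg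

namespace SncH

variable {n N : ℕ} {K : Type} [Field K] [Algebra ℂ K] {M : Mdl n N K}

/-- functions with independent differentials are part of a system of coordinates -/
theorem complete (hL : Loc M) (x : M.F) {α : Type} [Fintype α] {τ : α → K}
    (h : ∀ a, τ a ∈ M.O x ∧ M.val (τ a) x = 0) {e : Chart n M.W} (he : At e (x : M.W))
    (hi : LinearIndependent ℂ fun a => dd (M.val (τ a)) e x) :
    ∃ (t : Fin n → K) (lab : α ↪ Fin n), M.Coord x t ∧ ∀ a, t (lab a) = τ a := by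
  classical
  obtain ⟨s, hs⟩ := hL.coord x
  have h0 : ∀ j, Sum.elim τ s j ∈ M.O x ∧ M.val (Sum.elim τ s j) x = 0 := Sum.rec h hs.1
  obtain ⟨b, -, h1, h2, h3⟩ := exists_linearIndepOn_extension (K := ℂ)
    (v := fun j => dd (M.val (Sum.elim τ s j)) e x) (s := range Sum.inl)
    ((linearIndepOn_range_iff Sum.inl_injective _).2 hi) (subset_univ _)
  have h4 : ∀ w, (∀ j ∈ b, dd (M.val (Sum.elim τ s j)) e x w = 0) → w = 0 := fun w hw => by
    refine (injective_iff_map_eq_zero _).1 (Bert.jd_ne_iff.1 (hs.2 e he)) w ?_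
    rw [fderiv_pi fun i => ((hs.1 i).1 e he).differentiableAt]
    funext i
    exact Submodule.span_induction (p := fun (l : Cm n →L[ℂ] ℂ) _ => l w = 0)
      (by rintro _ ⟨j, a, rfl⟩; exact hw j a) rfl (fun _ _ _ _ a c => by simp [a, c])
      (fun _ _ _ a => by simp [a]) (h2 ⟨Sum.inr i, trivial, rfl⟩)
  have h5 := (LinearEquiv.ofBijective (ContinuousLinearMap.pi fun j : b =>
    dd (M.val (Sum.elim τ s j)) e x).toLinearMap ⟨(injective_iff_map_eq_zero _).2 fun w hw =>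
      h4 w fun j hj => congrFun hw ⟨j, hj⟩, (Slc.ind_iff_surj _).1 h3⟩).finrank_eq
  let ε : b ≃ Fin n := Fintype.equivFinOfCardEq (by simpa using h5.symm)
  refine ⟨fun i => Sum.elim τ s (ε.symm i), ⟨fun a => ε ⟨Sum.inl a, h1 ⟨a, rfl⟩⟩, fun a c k =>
    Sum.inl_injective (congrArg Subtype.val (ε.injective k))⟩,
    Bert.coord_of_chart (fun i => h0 _) he ?_,
    fun a => congrArg (fun j : b => Sum.elim τ s j) (ε.symm_apply_apply _)⟩
  rw [fderiv_pi fun i => ((h0 _).1 e he).differentiableAt]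
  refine (injective_iff_map_eq_zero _).2 fun w hw => h4 w fun j hj => ?_
  simpa [dd] using congrFun hw (ε ⟨j, hj⟩)

theorem loc {L : Bd M.W} {D : Div K} {s σ : L.ι → M.W → ℂ} {f : K} (hR : M.Rep L D s)
    (hσ : M.Sec L σ) (hM : M.Mul s f σ) (x : M.F) {i : L.ι} (hi : (x : M.W) ∈ L.U i) :
    ∃ (t : K) (u : M.W → ℂ), t ≠ 0 ∧ (∀ P, M.On x P → D P = P.ord t) ∧ f * t ∈ M.O x ∧
      Hol n u x ∧ u x ≠ 0 ∧ ∀ᶠ y in 𝓝 (x : M.W), M.val (f * t) y = u y * σ i y := by
  obtain ⟨t, u, h1, h2, h3, h4, h5⟩ := hR.loc x i hi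
  have h6 := Lo.hol_mul (Lo.hol_inv h3 h4) (Lb.sec_hol hσ x.2 hi)
  have h7 : ∀ᶠ y in gen {(x : M.W)}, M.val (f * t) y = (u y)⁻¹ * σ i y := by
    filter_upwards [h5, hM x i hi, M.at_pt (M.val_mul f t) x, gen_of_nhds (Lo.hol_ne h3 h4)]
      with y a1 a2 a3 a4
    rw [a3, a2, a1]
    field_simp
  exact ⟨t, _, h1, h2, M.mem_O_of h6 h7, Lo.hol_inv h3 h4, inv_ne_zero h4, M.val_eq x.2 h6 h7⟩

end SncH

open SncH FI

theorem snc (n : ℕ) : SNC n := by
  intro N K _ _ M hL κ _ O σ D s h hI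
  classical
  choose f f1 f2 using fun l => Lb.lbd_fn M _ _ _ _ (h l).2.2.1 (h l).2.2.2
  have key : ∀ x : M.F, ∃ (τ : κ → K) (p : κ → Prop) (t : Fin n → K) (lab : {l // p l} ↪ Fin n),
      M.Coord x t ∧ (∀ a, t (lab a) = τ a) ∧ (∀ l, f l ≠ 0) ∧ (∀ l P, M.On x P →
        (M.div (f l) + D l) P = P.ord (τ l) ∧ (¬ p l → P.ord (τ l) = 0)) := by
    intro x
    choose k hk using fun l => (h l).2.2.1.lb.cover x x.2
    choose t u a1 a2 a3 a4 a5 a6 using fun l => loc (h l).2.2.1 (h l).2.2.2 (f2 l) x (hk l)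
    have he := Slc.at_chartAt (n := n) (x : M.W)
    have b1 := hI x x.2 k hk
    have b2 : ∀ l, σ l (k l) x ≠ 0 → M.val (f l * t l) x ≠ 0 := fun l c => by
      rw [(a6 l).self_of_nhds]
      exact mul_ne_zero (a5 l) c
    obtain ⟨t', lab, c1, c2⟩ := complete hL x (τ := fun a : {l // σ l (k l) x = 0} => f a * t a)
      (fun a => ⟨a3 a, by rw [(a6 a).self_of_nhds, a.2, mul_zero]⟩) he (by
        have e : (fun a : {l // σ l (k l) x = 0} => dd (M.val (f a * t a)) _ x) = _ :=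
          funext fun a => (Slc.dd_congr (a6 a) he).trans (Slc.dd_mul (a4 a) (b1.1 a) a.2 he)
        rw [e]
        exact (b1.2 _ he).units_smul fun a => Units.mk0 _ (a5 a))
    have b3 : ∀ l, f l * t l ≠ 0 := fun l => by
      by_cases c : σ l (k l) x = 0
      · exact c2 ⟨l, c⟩ ▸ (co1 n N K M hL x t' _ c1).1
      · exact fun e => b2 l c (by rw [e, M.val_zero])
    refine ⟨_, _, t', lab, c1, c2, fun l => left_ne_zero_of_mul (b3 l), fun l P hP =>
      ⟨?_, fun c => Bert.ord_unit hL hP (a3 l) (b2 l c)⟩⟩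
    rw [Finsupp.add_apply, div_apply hL _ ⟨x, hP⟩, a2 l P hP,
      Pl.ord_mul P (left_ne_zero_of_mul (b3 l)) (a1 l), Int.cast_add]
  obtain ⟨x₀, hx₀⟩ := M.conn.nonempty
  obtain ⟨-, -, -, -, -, -, f0, -⟩ := key ⟨x₀, hx₀⟩
  have d : ∀ l, M.Dv (M.div (f l) + D l) := fun l => dv_add (dv_div _) (h l).1
  refine ⟨fun l => M.div (f l) + D l, fun l i y => M.val (f l) y * s l i y, fun l =>
    ⟨d l, IsInt.add (int_div hL _) (h l).2.1, ⟨(h l).2.2.1.lb, fun i j y hi hj =>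
      (congrArg _ ((h l).2.2.1.chg i j y hi hj)).trans (mul_left_comm _ _ _), fun x i hi => ?_⟩,
      div_add_nonneg hL (h l).1 (f1 l) (f0 l)⟩, fun P => ?_,
    fun P hP => let ⟨l, hl⟩ := mem_iUnion.1 hP; d l P hl, fun x => ?_⟩
  · obtain ⟨t, u, a1, a2, a3, a4, a5⟩ := (h l).2.2.1.loc x i hi
    refine ⟨f l * t, u, mul_ne_zero (f0 l) a1, fun P hP => by
      rw [Finsupp.add_apply, div_apply hL _ ⟨x, hP⟩, a2 P hP, Pl.ord_mul P (f0 l) a1,
        Int.cast_add], a3, a4, ?_⟩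
    filter_upwards [a5, M.at_pt (M.val_mul (f l) t) x] with y b1 b2
    rw [b1, b2, mul_left_comm]
  · by_cases hP : M.Pr P
    · obtain ⟨x, hx⟩ := hP
      obtain ⟨τ, p, t, lab, a1, a2, -, a3⟩ := key x
      have b1 := jac n N K M hL x t t 1 P a1 hx (fun i => (a1.1 i).1) (jac_refl t) one_ne_zero
      have b2 := Finset.sum_le_univ_sum_of_nonneg (s := Finset.univ.map lab)
        fun i => Bert.ord_nonneg hx (a1.1 i).1
      rw [Finset.sum_map, Finset.sum_congr rfl fun a _ => congrArg P.ord (a2 a)] at b2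
      rw [Finset.sum_congr rfl fun l _ => (a3 l P hx).1, ← Int.cast_sum,
        ← Fintype.sum_subtype_add_sum_subtype p,
        Finset.sum_eq_zero fun (l : {l // ¬ p l}) _ => (a3 l P hx).2 l.2, add_zero]
      exact_mod_cast (b2.trans b1).trans_eq (by simp)
    · rw [Finset.sum_eq_zero fun l _ => dv_iff.1 (d l) P hP]
      exact zero_le_one
  · obtain ⟨τ, p, t, lab, a1, a2, -, a3⟩ := key x
    refine ⟨t, a1, fun P hP hx => ?_⟩
    obtain ⟨l, hl⟩ := mem_iUnion.1 hP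
    have b1 := Finsupp.mem_support_iff.1 hl
    rw [(a3 l P hx).1, Int.cast_ne_zero] at b1
    have b2 : p l := by_contra fun c => b1 ((a3 l P hx).2 c)
    exact ⟨lab ⟨l, b2⟩, (co1 n N K M hL x t _ a1).2 P hx (lt_of_le_of_ne
      (Bert.ord_nonneg hx (a1.1 _).1) (by rw [a2]; exact b1.symm))⟩

end Vale.Agent.P277Z.Brg
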