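import Vale.Agent.P277Z.Brg.Main
import Vale.Agent.P277Z.Brg.Fib
import Vale.Agent.P277Z.Brg.Snc
import Vale.Agent.P277Z.Brg.Adj
import Vale.Agent.P277Z.Brg.Opn
import Vale.Agent.P277Z.Brg.Ramp
import Vale.Agent.P277Z.Brg.Divv
import Vale.Agent.P277Z.Lo.All
import Vale.Agent.P277Z.Lo.Mk
import Vale.Agent.P277Z.Ps.Jet
import Vale.Agent.P277Z.Van.Sing
import Vale.Agent.P277Z.Pj.Rap

/-!
# P277, block BRG: assembly
-/

namespace Vale.Agent.P277Z.Brg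

theorem fgb {n : ℕ} (hC : COH n) (hA : FI.THA n) : FGB n :=
  fgb_of (fgc mk (loc (Ps.jet_of Van.jet) n) hC (Ps.ggf_of Van.gg) (snc n) hA)

theorem rpoA : RPO := rpo opnR

theorem adjvA : ADJV := adjv calcR opnR divv

theorem fgvA (hC : COH 4) (hA : FI.THA 4) (hR : Pj.REMG) : FGV :=
  fgv (fgb hC hA) ramp rpoA divv Pj.rap hR

end Vale.Agent.P277Z.Brg
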