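import Vale.Agent.P277Z.Brg.Defs
import Vale.Agent.P277Z.Ps.Met
import Vale.Agent.P277Z.Luf.Hol

/-!
# P277, block BRG: the cone of positive classes
-/

open scoped Manifold ContDiff Topology ComplexOrder
open Set Filter
open Vale.Agent.P272.K Vale.Agent.P285.H281.FD
open Vale.Agent.P277Z.Slc (lin Ind ForW)

noncomputable section

namespace Vale.Agent.P277Z.Brg

open Pos Ps

variable {n : ℕ} {W : Type} [TopologicalSpace W] [ChartedSpace (Cm n) W] {α : Type}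
  {F F' : Set W} {x : W}

namespace Cl

theorem spsh_congr {u v : W → ℝ} (h : Spsh n u x) (k : ∀ᶠ y in 𝓝 x, v y = u y) : Spsh n v x :=
  fun e he =>
  have k' : (fun z => v (e.symm z)) =ᶠ[𝓝 (e x)] fun z => u (e.symm z) :=
    (e.tendsto_symm he.2).eventually k
  ⟨(h e he).1.congr_of_eventuallyEq k', by rw [cHess_congr k']; exact (h e he).2⟩

theorem pt {p : W → Prop} (h : ∀ᶠ y in 𝓝ˢ F, p y) (hx : x ∈ F) : ∀ᶠ y in 𝓝 x, p y :=
  h.filter_mono (nhds_le_nhdsSet hx)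

theorem log_prod [Fintype α] {g : α → ℂ} (h : ∀ a, g a ≠ 0) (m : α → ℤ) :
    Real.log (‖∏ a, g a ^ m a‖ ^ 2) = ∑ a, m a * Real.log (‖g a‖ ^ 2) := by
  rw [norm_prod, ← Finset.prod_pow, Real.log_prod fun a _ =>
    pow_ne_zero _ (norm_ne_zero_iff.2 (zpow_ne_zero _ (h a)))]
  refine Finset.sum_congr rfl fun a _ => ?_
  rw [norm_zpow, Real.log_pow, Real.log_pow, Real.log_zpow]
  ring

end Cl

open Cl

theorem LBN.mono {L : Bd W} (h : LBN n F L) (hF : F' ⊆ F) : LBN n F' L :=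
  ⟨h.isOpen, fun x hx => h.cover x (hF hx), h.near.filter_mono (nhdsSet_mono hF)⟩

theorem SecN.mono {L : Bd W} {s : L.ι → W → ℂ} (h : SecN n F L s) (hF : F' ⊆ F) : SecN n F' L s :=
  h.filter_mono (nhdsSet_mono hF)

theorem MetN.mono {L : Bd W} {ψ : L.ι → W → ℝ} (h : MetN n F L ψ) (hF : F' ⊆ F) : MetN n F' L ψ :=
  h.filter_mono (nhdsSet_mono hF)

theorem lbn_of_isLB {L : Bd W} (h : IsLB n L) (F : Set W) : LBN n F L :=
  ⟨h.isOpen, fun x _ => h.cover x, .of_forall fun y i j hi hj =>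
    ⟨fun e he => (h.holo i j e y he hi hj).analyticAt, h.ne_zero i j y hi hj,
      fun k hk => h.cocycle i j k y hi hj hk⟩⟩

theorem secN_of_isSec {L : Bd W} {s : L.ι → W → ℂ} (h : IsSec n L s) (F : Set W) : SecN n F L s :=
  .of_forall fun y i hi =>
    ⟨fun e he => (h.holo i e y he hi).analyticAt, fun j hj => h.change i j y hi hj⟩

theorem metN_of_isMet {L : Bd W} {ψ : L.ι → W → ℝ} (h : IsMet n L ψ) (F : Set W) : MetN n F L ψ :=
  .of_forall fun y i hi => ⟨fun e he => h.smooth i e y he hi, fun j hj => h.change i j y hi hj⟩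

variable [Fintype α] {L : α → Bd W} {c c' : α → ℝ} {Λ : (∀ a, (L a).ι) → W → ℝ}

theorem PosR.mono (h : PosR n F L c) (hF : F' ⊆ F) : PosR n F' L c :=
  h.imp fun _ k x hx => k x (hF hx)

theorem Cl.fr (hL : ∀ a, LBN n F (L a)) {k : ∀ a, (L a).ι} (hk : ∀ a, x ∈ (L a).U (k a)) :
    ∀ᶠ y in 𝓝 x, ∀ a, y ∈ (L a).U (k a) :=
  eventually_all.2 fun a => ((hL a).isOpen _).mem_nhds (hk a)

omit [Fintype α] in
theorem Cl.ex (hL : ∀ a, LBN n F (L a)) (hx : x ∈ F) :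
    ∃ k : ∀ a, (L a).ι, ∀ a, x ∈ (L a).U (k a) :=
  Classical.axiom_of_choice fun a => (hL a).cover x hx

theorem PosX.near (hL : ∀ a, LBN n F (L a)) (h : PosX n L c Λ x) : ∀ᶠ y in 𝓝 x, PosX n L c Λ y := by
  obtain ⟨k, h0, h1⟩ := h.pos
  filter_upwards [fr hL h0, h1.eventually_nhds, h.chg.eventually_nhds] with y a1 a2 a3
    using ⟨⟨k, a1, a2⟩, a3⟩

theorem PosX.all (hL : ∀ a, LBN n F (L a)) (hx : x ∈ F) (h : PosX n L c Λ x) {k : ∀ a, (L a).ι}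
    (hk : ∀ a, x ∈ (L a).U (k a)) : ∀ᶠ y in 𝓝 x, Spsh n (Λ k) y := by
  obtain ⟨k0, h0, h1⟩ := h.pos
  filter_upwards [h1, (h.chg.and ((fr hL hk).and (fr hL h0))).eventually_nhds,
    eventually_all.2 fun a => pt (hL a).near hx] with y a1 a2 a3
  have b := a2.self_of_nhds.2
  exact spsh_congr (spsh_add a1 (flat_psd (flat_sum Finset.univ fun a _ => flat_smul (c a)
    (flatAt_log (a3 a _ _ (b.1 a) (b.2 a)).1 (a3 a _ _ (b.1 a) (b.2 a)).2.1))))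
    (a2.mono fun z hz => hz.1 k k0 hz.2.1 hz.2.2)

/-- adding a semipositive class -/
theorem PosX.upd (h : PosX n L c Λ x) {w : (∀ a, (L a).ι) → W → ℝ}
    (h1 : ∀ k, (∀ a, x ∈ (L a).U (k a)) → ∀ᶠ y in 𝓝 x, PsdAt n (w k) y)
    (h2 : ∀ᶠ y in 𝓝 x, ∀ k k', (∀ a, y ∈ (L a).U (k a)) → (∀ a, y ∈ (L a).U (k' a)) →
      w k y = w k' y + ∑ a, c' a * Real.log (‖(L a).g (k a) (k' a) y‖ ^ 2)) :
    PosX n L (c + c') (fun k y => Λ k y + w k y) x := by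
  obtain ⟨k, h3, h4⟩ := h.pos
  refine ⟨⟨k, h3, (h4.and (h1 k h3)).mono fun y a => spsh_add a.1 a.2⟩, ?_⟩
  filter_upwards [h.chg, h2] with y a b k k' hk hk'
  simp only [a k k' hk hk', b k k' hk hk', Pi.add_apply, add_mul, Finset.sum_add_distrib]
  ring

theorem PosR.add (hL : ∀ a, LBN n F (L a)) (h : PosR n F L c) (h' : PosR n F L c') :
    PosR n F L (c + c') :=
  let ⟨_, h1⟩ := h
  let ⟨_, h2⟩ := h'
  ⟨_, fun x hx => (h1 x hx).upd
    (fun _ hk => ((h2 x hx).all hL hx hk).mono fun _ => spsh_psd) (h2 x hx).chg⟩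

theorem PosR.smul {r : ℝ} (hr : 0 < r) (h : PosR n F L c) : PosR n F L (r • c) := by
  obtain ⟨Λ, h⟩ := h
  refine ⟨fun k y => r * Λ k y, fun x hx => ?_⟩
  obtain ⟨k, h1, h2⟩ := (h x hx).pos
  refine ⟨⟨k, h1, h2.mono fun y => spsh_smul hr⟩, (h x hx).chg.mono fun y a k k' hk hk' => ?_⟩
  simp only [a k k' hk hk', mul_add, Finset.mul_sum, Pi.smul_apply, smul_eq_mul, mul_assoc]

theorem Cl.chg_sum (hL : ∀ a, LBN n F (L a)) (hx : x ∈ F) {a : α → ℤ} {ι : Type} [Fintype ι]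
    {θ : ι → (∀ a, (L a).ι) → W → ℂ} (hθ : ∀ j, SecN n F (lin L a) (θ j))
    (h0 : ∀ k, (∀ a, x ∈ (L a).U (k a)) → ∃ j, θ j k x ≠ 0) (r : ℝ) :
    ∀ᶠ y in 𝓝 x, (∀ k, (∀ a, y ∈ (L a).U (k a)) → (∀ j, Hol n (θ j k) y) ∧ ∃ j, θ j k y ≠ 0) ∧
      ∀ k k', (∀ a, y ∈ (L a).U (k a)) → (∀ a, y ∈ (L a).U (k' a)) →
        r * Real.log (∑ j, ‖θ j k y‖ ^ 2) = r * Real.log (∑ j, ‖θ j k' y‖ ^ 2) +
          ∑ i, (r • fun i => (a i : ℝ)) i * Real.log (‖(L i).g (k i) (k' i) y‖ ^ 2) := by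
  obtain ⟨k0, hk0⟩ := ex hL hx
  obtain ⟨j0, hj0⟩ := h0 k0 hk0
  filter_upwards [fr hL hk0, ((pt (hθ j0) hx).self_of_nhds k0 hk0).1.ne_near hj0,
    eventually_all.2 fun j => pt (hθ j) hx, eventually_all.2 fun a => pt (hL a).near hx]
    with y a1 a2 a3 a4
  have b : ∀ k, (∀ a, y ∈ (L a).U (k a)) → θ j0 k y ≠ 0 := fun k hk => by
    rw [(a3 j0 k hk).2 k0 a1]
    exact mul_ne_zero (Finset.prod_ne_zero_iff.2 fun i _ =>
      zpow_ne_zero _ (a4 i _ _ (hk i) (a1 i)).2.1) a2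
  refine ⟨fun k hk => ⟨fun j => (a3 j k hk).1, j0, b k hk⟩, fun k k' hk hk' => ?_⟩
  have e1 := fun i => (a4 i _ _ (hk i) (hk' i)).2.1
  have e2 : ∀ j, θ j k y = (∏ i, (L i).g (k i) (k' i) y ^ a i) * θ j k' y :=
    fun j => (a3 j k hk).2 k' hk'
  have e3 : 0 < ∑ j, ‖θ j k' y‖ ^ 2 := sq_pos (f := fun j _ => θ j k' y) (z := (0 : Cm n))
    ⟨j0, b k' hk'⟩
  simp only [e2, norm_mul, mul_pow, ← Finset.mul_sum, Pi.smul_apply, smul_eq_mul, mul_assoc]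
  rw [Real.log_mul (pow_ne_zero _ (norm_ne_zero_iff.2 (Finset.prod_ne_zero_iff.2 fun i _ =>
    zpow_ne_zero _ (e1 i)))) e3.ne', log_prod e1]
  ring

theorem PosR.rel (hL : ∀ a, LBN n F (L a)) {a : α → ℤ} {θ : (∀ a, (L a).ι) → W → ℂ} (r : ℝ)
    (hθ : SecN n F (lin L a) θ) (h0 : ∀ x ∈ F, ∀ k, (∀ a, x ∈ (L a).U (k a)) → θ k x ≠ 0)
    (h : PosR n F L c) : PosR n F L (c + r • fun i => (a i : ℝ)) := by
  obtain ⟨Λ, h⟩ := h
  refine ⟨fun k y => Λ k y + r * Real.log (‖θ k y‖ ^ 2), fun x hx => ?_⟩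
  have k1 := chg_sum hL hx (θ := fun _ : Unit => θ) (fun _ => hθ) (fun k hk => ⟨(), h0 x hx k hk⟩) r
  simp only [Fintype.sum_unique, exists_const, forall_const] at k1
  refine (h x hx).upd (w := fun k y => r * Real.log (‖θ k y‖ ^ 2)) (fun k hk => ?_)
    (k1.mono fun y a => a.2)
  filter_upwards [k1, fr hL hk] with y b1 b2
    using flat_psd (flat_smul r (flatAt_log (b1.1 k b2).1 (b1.1 k b2).2))

theorem PosR.free (hL : ∀ a, LBN n F (L a)) {a : α → ℤ} {ι : Type} [Fintype ι]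
    {θ : ι → (∀ a, (L a).ι) → W → ℂ} {r : ℝ} (hr : 0 ≤ r) (hθ : ∀ j, SecN n F (lin L a) (θ j))
    (h0 : ∀ x ∈ F, ∀ k, (∀ a, x ∈ (L a).U (k a)) → ∃ j, θ j k x ≠ 0) (h : PosR n F L c) :
    PosR n F L (c + r • fun i => (a i : ℝ)) := by
  obtain ⟨Λ, h⟩ := h
  refine ⟨fun k y => Λ k y + r * Real.log (∑ j, ‖θ j k y‖ ^ 2), fun x hx => ?_⟩
  have k1 := chg_sum hL hx hθ (h0 x hx) r
  refine (h x hx).upd (w := fun k y => r * Real.log (∑ j, ‖θ j k y‖ ^ 2)) (fun k hk => ?_)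
    (k1.mono fun y a => a.2)
  filter_upwards [k1, fr hL hk] with y b1 b2
    using psd_mul hr (psdAt_log (b1.1 k b2).1 (b1.1 k b2).2)

theorem Cl.sum_single {β : Type} [Fintype β] [DecidableEq α] (e : β → α) (c : β → ℝ) (w : α → ℝ) :
    ∑ a, (∑ b, Pi.single (e b) (c b) : α → ℝ) a * w a = ∑ b, c b * w (e b) := by
  simp only [Finset.sum_apply, Finset.sum_mul]
  rw [Finset.sum_comm]
  exact Finset.sum_congr rfl fun b _ => by simp [Pi.single_apply]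

theorem PosR.push (hL : ∀ a, LBN n F (L a)) {β : Type} [Fintype β] [DecidableEq α] (e : β → α)
    {c : β → ℝ} (h : PosR n F (fun b => L (e b)) c) : PosR n F L (∑ b, Pi.single (e b) (c b)) := by
  obtain ⟨Λ, h⟩ := h
  refine ⟨fun k => Λ fun b => k (e b), fun x hx => ?_⟩
  obtain ⟨k, hk⟩ := ex hL hx
  refine ⟨⟨k, hk, (h x hx).all (fun b => hL (e b)) hx fun b => hk (e b)⟩,
    (h x hx).chg.mono fun y a k k' hk hk' => ?_⟩
  rw [sum_single]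
  exact a _ _ (fun b => hk (e b)) fun b => hk' (e b)

theorem lbn_lin (hL : ∀ a, LBN n F (L a)) (a : α → ℤ) : LBN n F (lin L a) where
  isOpen i := isOpen_iff_mem_nhds.2 fun _ hx => fr hL hx
  cover _ hx := ex hL hx
  near := (eventually_all.2 fun a => (hL a).near).mono fun y h i j hi hj =>
    ⟨Hol.prod _ fun b _ => (h b _ _ (hi b) (hj b)).1.zpow (h b _ _ (hi b) (hj b)).2.1 _,
      Finset.prod_ne_zero_iff.2 fun b _ => zpow_ne_zero _ (h b _ _ (hi b) (hj b)).2.1,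
      fun k hk => by
        simp only [lin, ← Finset.prod_mul_distrib, ← mul_zpow]
        exact Finset.prod_congr rfl fun b _ => by rw [(h b _ _ (hi b) (hj b)).2.2 _ (hk b)]⟩

theorem posR_lin (hL : ∀ a, LBN n F (L a)) (a : α → ℤ) :
    PosR n F L (fun i => a i) ↔ PosR n F (fun _ : Unit => lin L a) fun _ => 1 := by
  refine ⟨fun ⟨Λ, h⟩ => ⟨fun k => Λ (k ()), fun x hx => ?_⟩,
    fun ⟨Λ, h⟩ => ⟨fun k => Λ fun _ => k, fun x hx => ?_⟩⟩
  · obtain ⟨k, h1, h2⟩ := (h x hx).pos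
    refine ⟨⟨fun _ => k, fun _ => h1, h2⟩, ?_⟩
    filter_upwards [(h x hx).chg, eventually_all.2 fun a => pt (hL a).near hx] with y b1 b2 k k'
      hk hk'
    rw [b1 _ _ (hk ()) (hk' ()), ← log_prod fun i => (b2 i _ _ (hk () i) (hk' () i)).2.1,
      Fintype.sum_unique, one_mul]
    rfl
  · obtain ⟨k, h1, h2⟩ := (h x hx).pos
    refine ⟨⟨k (), h1 (), h2⟩, ?_⟩
    filter_upwards [(h x hx).chg, eventually_all.2 fun a => pt (hL a).near hx] with y b1 b2 k k'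
      hk hk'
    rw [b1 (fun _ => k) (fun _ => k') (fun _ => hk) fun _ => hk', Fintype.sum_unique, one_mul,
      ← log_prod fun i => (b2 i _ _ (hk i) (hk' i)).2.1]
    rfl

/-- ROW CALC -/
theorem calcR : CALC := fun _ _ _ _ _ _ _ _ _ _ _ hL =>
  ⟨fun _ _ _ hx h _ hk => h.all hL hx hk, fun _ _ => PosR.add hL, fun _ _ => PosR.smul,
    fun _ _ _ r => PosR.rel hL r, fun _ _ _ _ _ => PosR.free hL, fun _ _ _ e _ => PosR.push hL e,
    fun a => ⟨lbn_lin hL a, posR_lin hL a⟩⟩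

end Vale.Agent.P277Z.Brg
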