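import Vale.Agent.P277Z.Brg.Defs
import Vale.Agent.P277Z.Lbd.All
import Vale.Agent.P277Z.FI.Dv

/-!
# P277, block BRG: positive combinations of line bundles are ample divisors
-/

open scoped Manifold ContDiff Topology
open Set Filter
open Vale.Agent.P272.K Vale.Agent.P285.H281.FD
open Vale.Agent.P277Z.Slc (lin)
open Vale.Agent.P277Z.Lb
open Vale.Agent.P297 (Place)
open Vale.Agent.P297Z

noncomputable section

namespace Vale.Agent.P277Z.Brg

variable {n N : ℕ} {α : Type} [Fintype α]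

theorem pw_add {v : α → ℂ} (h : ∀ i, v i ≠ 0) (a b : α → ℤ) :
    ∏ i, v i ^ (a + b) i = (∏ i, v i ^ a i) * ∏ i, v i ^ b i := by
  rw [← Finset.prod_mul_distrib]
  exact Finset.prod_congr rfl fun i _ => zpow_add₀ (h i) _ _

theorem pw_sum {v : α → ℂ} (h : ∀ i, v i ≠ 0) {J : Type} (S : Finset J) (m : J → ℕ)
    (d : J → α → ℤ) : ∏ i, v i ^ (∑ j ∈ S, m j • d j) i = ∏ j ∈ S, (∏ i, v i ^ d j i) ^ m j := by
  classical
  induction S using Finset.induction_on with
  | empty => simp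
  | insert j S hj ih =>
    rw [Finset.sum_insert hj, Finset.prod_insert hj, pw_add h, ih, ← Finset.prod_pow]
    refine congrArg (· * _) (Finset.prod_congr rfl fun i _ => ?_)
    rw [← zpow_natCast, ← zpow_mul, Pi.smul_apply, nsmul_eq_mul, mul_comm]

section mfd

variable {W : Type} [TopologicalSpace W] [ChartedSpace (Cm n) W]

theorem sub_logs {φ : W → ℝ} {w : α → W → ℂ} {x : W} (h : Spsh n φ x) (c : α → ℝ)
    (hw : ∀ a, Hol n (w a) x) (h0 : ∀ a, w a x ≠ 0) :
    Spsh n (fun y => φ y - ∑ a, c a * Real.log (‖w a y‖ ^ 2)) x := by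
  classical
  suffices k : ∀ S : Finset α, Spsh n (fun y => φ y - ∑ a ∈ S, c a * Real.log (‖w a y‖ ^ 2)) x from
    k _
  intro S
  induction S using Finset.induction_on with
  | empty => simpa using h
  | insert a S ha ih =>
    intro e he
    have h1 : w a (e.symm (e x)) ≠ 0 := by rw [e.left_inv he.2]; exact h0 a
    have h2 : ContDiffAt ℝ ∞ (fun z => Real.log (‖w a (e.symm z)‖ ^ 2)) (e x) :=
      ((((hw a e he).contDiffAt (n := ∞)).restrict_scalars ℝ).norm_sq ℂ).log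
        (pow_ne_zero _ (norm_ne_zero_iff.2 h1))
    have k : (2 : WithTop ℕ∞) ≤ ∞ := WithTop.coe_le_coe.2 (le_top (a := (2 : ℕ∞)))
    simp only [Finset.sum_insert ha, add_comm (c a * _), sub_add_eq_sub_sub]
    refine ⟨(ih e he).1.sub (contDiffAt_const.mul h2), ?_⟩
    rw [cHess_sub ((ih e he).1.of_le k) (contDiffAt_const.mul (h2.of_le k)),
      cHess_const_mul _ (h2.of_le k), cHess_log_norm_sq (hw a e he).contDiffAt h1, smul_zero,
      sub_zero]
    exact (ih e he).2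

/-- the restriction to an open set -/
abbrev res (O : Set W) (L : Bd W) : Bd W := ⟨L.ι, fun i => L.U i ∩ O, L.g⟩

end mfd

theorem lb_lin {G : Geo n N} {L : α → Bd G.W} (h : ∀ a, G.LB (L a)) (d : α → ℤ) :
    G.LB (lin L d) where
  isOpen k := by
    have e : (lin L d).U k = ⋂ a, (L a).U (k a) := by ext; simp [lin]
    exact e ▸ isOpen_iInter_of_finite fun a => (h a).isOpen _
  cover x hx := by
    choose k hk using fun a => (h a).cover x hx
    exact ⟨k, hk⟩
  holo k k' x h1 h2 := Hol.prod _ fun a _ =>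
    ((h a).holo _ _ x (h1 a) (h2 a)).zpow ((h a).ne_zero _ _ x (h1 a) (h2 a)) _
  ne_zero k k' x h1 h2 := Finset.prod_ne_zero_iff.2 fun a _ =>
    zpow_ne_zero _ ((h a).ne_zero _ _ x (h1 a) (h2 a))
  cocycle k k' k'' x h1 h2 h3 := Finset.prod_mul_distrib.symm.trans
    (Finset.prod_congr rfl fun a _ => by
      rw [← mul_zpow, (h a).cocycle _ _ _ x (h1 a) (h2 a) (h3 a)])

variable {K : Type} [Field K] [Algebra ℂ K] {M : Mdl n N K}

theorem rep_res {L : Bd M.W} {D : Div K} {s : L.ι → M.W → ℂ} (h : M.Rep L D s) {O : Set M.W}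
    (hO : IsOpen O) (hF : M.F ⊆ O) : M.Rep (res O L) D s where
  lb := ⟨fun i => (h.lb.isOpen i).inter hO, fun x hx => (h.lb.cover x hx).imp fun _ k => ⟨k, hF hx⟩,
    fun i j x a b => h.lb.holo i j x a.1 b.1, fun i j x a b => h.lb.ne_zero i j x a.1 b.1,
    fun i j k x a b c => h.lb.cocycle i j k x a.1 b.1 c.1⟩
  chg i j y a b := h.chg i j y a.1 b.1
  loc x i a := h.loc x i a.1

theorem rep_ne {L : Bd M.W} {D : Div K} {s : L.ι → M.W → ℂ} (h : M.Rep L D s) (x : M.F) {i : L.ι}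
    (hi : (x : M.W) ∈ L.U i) : ∀ᶠ y in gen {(x : M.W)}, s i y ≠ 0 := by
  obtain ⟨t, u, t0, -, hu, u0, e⟩ := h.loc x i hi
  filter_upwards [e, gen_of_nhds (hu.ne_near u0), M.at_pt (M.val_ne t0) x] with y h1 h2 h3
    using h1 ▸ mul_ne_zero h2 h3

theorem rep_lg (hL : Loc M) {L : Bd M.W} {D : Div K} {s : L.ι → M.W → ℂ} (h : M.Rep L D s)
    (x : M.F) {i : L.ι} (hi : (x : M.W) ∈ L.U i) : ∃ w : M.W → ℂ, Hol n w x ∧ w x ≠ 0 ∧
      ∀ᶠ y in gen {(x : M.W)}, Real.log (‖s i y‖ ^ 2) = Real.log (‖w y‖ ^ 2) + M.lg x D y := by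
  classical
  obtain ⟨t, u, t0, ht, hu, u0, e⟩ := h.loc x i hi
  set t' := eqD M x D.support fun P => P.ord t
  obtain ⟨w1, w2⟩ := unit_of hL (x := x) (div_ne_zero t0 (eqD_ne x _ _) : t / t' ≠ 0) fun Q hQ => by
    rw [Pl.ord_div Q t0 (eqD_ne x _ _), (near_eqD hL x _ _).self_of_nhds Q hQ]
    split_ifs with k
    · exact sub_self _
    · have := (ht Q hQ).symm.trans (Finsupp.notMem_support_iff.1 k)
      rw [Int.cast_eq_zero.1 this, sub_self]
  have hw : Hol n (fun y => u y * M.val (t / t') y) x := hu.mul w1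
  refine ⟨_, hw, mul_ne_zero u0 w2, ?_⟩
  filter_upwards [gen_of_nhds (hw.ne_near (mul_ne_zero u0 w2)), e, M.at_pt (lg_eq x ht) x,
    M.at_pt (M.val_div t t') x, M.at_pt (M.val_ne (eqD_ne x _ _ : t' ≠ 0)) x] with y k2 k3 k4 k5 k6
  rw [k4, ← log_mul_sq k2 k6, k3, k5, mul_assoc, div_mul_cancel₀ _ k6]

theorem lg_sum (x : M.F) (c : α → ℝ) (D : α → Div K) (y : M.W) :
    M.lg x (∑ a, c a • D a) y = ∑ a, c a * M.lg x (D a) y := by
  have e : ∀ E : Div K, M.lg x E y = Finsupp.linearCombination ℝ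
    (fun P => Real.log (‖M.val (M.eqn x P) y‖ ^ 2)) E := fun E => rfl
  simp only [e, map_sum, map_smul, smul_eq_mul]

variable {L : α → Bd M.W} {D : α → Div K} {s : ∀ a, (L a).ι → M.W → ℂ}

theorem amp_of (hL : Loc M) (h : ∀ a, M.Rep (L a) (D a) (s a)) {c : α → ℝ}
    (hc : PosR n M.F L c) : M.Amp (∑ a, c a • D a) := by
  classical
  obtain ⟨Λ, hΛ⟩ := hc
  refine ⟨fun y => if k : ∃ k : ∀ a, (L a).ι, ∀ a, y ∈ (L a).U (k a) then
    ∑ a, c a * Real.log (‖s a (k.choose a) y‖ ^ 2) - Λ k.choose y else 0, fun x => ?_⟩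
  obtain ⟨⟨k, hk, h1⟩, h2⟩ := hΛ x x.2
  choose w hw w0 e using fun a => rep_lg hL (h a) x (hk a)
  refine ⟨fun y => Λ k y - ∑ a, c a * Real.log (‖w a y‖ ^ 2), ?_, ?_⟩
  · filter_upwards [h1, eventually_all.2 fun a => (hw a).near,
      eventually_all.2 fun a => (hw a).ne_near (w0 a)] with y k1 k2 k3 using sub_logs k1 c k2 k3
  · filter_upwards [gen_of_nhds h2, eventually_all.2 e,
      gen_of_nhds (eventually_all.2 fun a => ((h a).lb.isOpen _).eventually_mem (hk a)),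
      eventually_all.2 fun a => rep_ne (h a) x (hk a)] with y k1 k2 k3 k4
    have k5 : ∃ k : ∀ a, (L a).ι, ∀ a, y ∈ (L a).U (k a) := ⟨k, k3⟩
    have k6 : ∀ a, c a * Real.log (‖s a (k5.choose a) y‖ ^ 2) =
        c a * Real.log (‖(L a).g (k5.choose a) (k a) y‖ ^ 2) +
          (c a * Real.log (‖w a y‖ ^ 2) + c a * M.lg x (D a) y) := fun a => by
      rw [(h a).chg _ _ y (k5.choose_spec a) (k3 a),
        log_mul_sq ((h a).lb.ne_zero _ _ y (k5.choose_spec a) (k3 a)) (k4 a), k2 a]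
      ring
    rw [dif_pos k5, k1 _ k k5.choose_spec k3, lg_sum]
    simp only [k6, Finset.sum_add_distrib]
    ring

theorem rep_lin (h : ∀ a, M.Rep (L a) (D a) (s a)) (d : α → ℤ) :
    M.Rep (lin L d) (∑ a, (d a : ℝ) • D a) fun k y => ∏ a, s a (k a) y ^ d a where
  lb := lb_lin (fun a => (h a).lb) d
  chg k k' y h1 h2 := (Finset.prod_congr rfl fun a _ => by
    rw [(h a).chg _ _ y (h1 a) (h2 a), mul_zpow]).trans Finset.prod_mul_distrib
  loc x k hk := by
    choose t u t0 ht hu u0 e using fun a => (h a).loc x (k a) (hk a)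
    refine ⟨∏ a, t a ^ d a, fun y => ∏ a, u a y ^ d a,
      Finset.prod_ne_zero_iff.2 fun a _ => zpow_ne_zero _ (t0 a), fun P hP => ?_,
      Hol.prod _ fun a _ => (hu a).zpow (u0 a) _,
      Finset.prod_ne_zero_iff.2 fun a _ => zpow_ne_zero _ (u0 a), ?_⟩
    · rw [FI.ord_prod P _ fun a _ => zpow_ne_zero _ (t0 a)]
      simp [Finsupp.finsetSum_apply, Pl.ord_zpow, fun a => ht a P hP]
    · filter_upwards [eventually_all.2 e, M.at_pt (M.val_prod Finset.univ fun a => t a ^ d a) x,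
        eventually_all.2 fun a => M.at_pt (M.val_zpow (t a) (d a)) x] with y k1 k2 k3
      simp only [k1, k2, k3, mul_zpow, Finset.prod_mul_distrib]

end Vale.Agent.P277Z.Brg
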