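import Vale.Agent.P277Z.FI.Sk
import Vale.Agent.P277Z.Spec2
import Vale.Agent.P277Z.Slc.Defs

/-!
# P277, block BRG: finite generation for line bundles near a fibre (statements)
-/

open scoped Manifold ContDiff Topology
open Set Filter
open Vale.Agent.P272.K Vale.Agent.P285.H281.FD
open Vale.Agent.P277Z.Slc (lin Ind ForW)
open Vale.Agent.P297 (Place)

noncomputable section

namespace Vale.Agent.P277Z.Brg

section defs

variable (n : ℕ) {W : Type} [TopologicalSpace W] [ChartedSpace (Cm n) W] {α κ : Type}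

/-- `L` is a line bundle near `F` -/
structure LBN (F : Set W) (L : Bd W) : Prop where
  isOpen : ∀ i, IsOpen (L.U i)
  cover : ∀ x ∈ F, ∃ i, x ∈ L.U i
  near : ∀ᶠ y in 𝓝ˢ F, ∀ i j, y ∈ L.U i → y ∈ L.U j → Hol n (L.g i j) y ∧ L.g i j y ≠ 0 ∧
    ∀ k, y ∈ L.U k → L.g i j y * L.g j k y = L.g i k y

/-- `s` is a section of `L` near `F` -/
def SecN (F : Set W) (L : Bd W) (s : L.ι → W → ℂ) : Prop :=
  ∀ᶠ y in 𝓝ˢ F, ∀ i, y ∈ L.U i → Hol n (s i) y ∧ ∀ j, y ∈ L.U j → s i y = L.g i j y * s j y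

/-- `ψ` is a smooth metric on `L` near `F` -/
def MetN (F : Set W) (L : Bd W) (ψ : L.ι → W → ℝ) : Prop :=
  ∀ᶠ y in 𝓝ˢ F, ∀ i, y ∈ L.U i →
    (∀ e : Chart n W, At e y → ContDiffAt ℝ ∞ (fun z => ψ i (e.symm z)) (e y)) ∧
      ∀ j, y ∈ L.U j → ψ i y = ψ j y + Real.log (‖L.g i j y‖ ^ 2)

/-- `F` is a compact part of the fibre of `t` over `z`, with finitely many components -/
structure Fb (F : Set W) {N : ℕ} (t : W → Cm N) (z : Cm N) : Prop where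
  cpt : IsCompact F
  hol : ∀ x ∈ F, ∀ i, Hol n (fun y => t y i) x
  fib : ∀ᶠ y in 𝓝ˢ F, t y = z ↔ y ∈ F
  fin : {C | ∃ w ∈ F, C = connectedComponentIn F w}.Finite

/-- `L k₀` is the canonical bundle, and the zero sets of the sections `σ l` of `L (o l)` have simple
normal crossings along `F` -/
structure Bnd (F : Set W) (L : α → Bd W) (k₀ : α) (o : κ → α)
    (σ : ∀ l, (L (o l)).ι → W → ℂ) : Prop where
  can : L k₀ = Bd.can n W
  inj : Function.Injective o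
  ne : ∀ l, o l ≠ k₀
  sec : ∀ l, SecN n F (L (o l)) (σ l)
  snc : ∀ x ∈ F, ∀ k : ∀ l, (L (o l)).ι, (∀ l, x ∈ (L (o l)).U (k l)) →
    Ind n (fun l : {l // σ l (k l) x = 0} => σ l (k l)) x

variable [Fintype α]

/-- `Λ` is near `x` the weight of a metric of positive curvature on `⊗ a, L a ^ c a` -/
structure PosX (L : α → Bd W) (c : α → ℝ) (Λ : (∀ a, (L a).ι) → W → ℝ) (x : W) : Prop where
  pos : ∃ k, (∀ a, x ∈ (L a).U (k a)) ∧ ∀ᶠ y in 𝓝 x, Spsh n (Λ k) y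
  chg : ∀ᶠ y in 𝓝 x, ∀ k k', (∀ a, y ∈ (L a).U (k a)) → (∀ a, y ∈ (L a).U (k' a)) →
    Λ k y = Λ k' y + ∑ a, c a * Real.log (‖(L a).g (k a) (k' a) y‖ ^ 2)

/-- the real combination `∑ c a • L a` is positive near `F` -/
def PosR (F : Set W) (L : α → Bd W) (c : α → ℝ) : Prop := ∃ Λ, ∀ x ∈ F, PosX n L c Λ x

/-- there is a positive line bundle near `F` -/
def PrjN (F : Set W) : Prop := ∃ P : Bd W, LBN n F P ∧ PosR n F (fun _ : Unit => P) fun _ => 1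

open Classical in
/-- `a = d (K + A + ∑ b l • O l)` with `A` positive and `0 ≤ b ≤ 1` -/
def AdjL [Fintype κ] (F : Set W) (L : α → Bd W) (k₀ : α) (o : κ → α) (a : α → ℤ) : Prop :=
  ∃ (d : ℝ) (b : κ → ℝ), 0 < d ∧ (∀ l, 0 ≤ b l ∧ b l ≤ 1) ∧
    PosR n F L ((fun i => d⁻¹ * a i) - Pi.single k₀ 1 - ∑ l, Pi.single (o l) (b l))

/-- the sections near `F` of the bundles `lin L a`, `a ∈ S`, are polynomials in finitely many such
sections, with coefficients from the base -/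
def FGL (F : Set W) {N : ℕ} (t : W → Cm N) (z : Cm N) (L : α → Bd W) (S : Set (α → ℤ)) : Prop :=
  ∃ (q : ℕ) (d : Fin q → α → ℤ) (u : Fin q → (∀ a, (L a).ι) → W → ℂ),
    (∀ j, d j ∈ S ∧ SecN n F (lin L (d j)) (u j)) ∧
    ∀ a ∈ S, ∀ s, SecN n F (lin L a) s → ∃ (T : Finset (Fin q → ℕ)) (c : (Fin q → ℕ) → Cm N → ℂ),
      (∀ m ∈ T, ∑ j, m j • d j = a ∧ AnalyticAt ℂ (c m) z) ∧
      ∀ᶠ y in 𝓝ˢ F, ∀ k, (∀ a, y ∈ (L a).U (k a)) → s k y = ∑ m ∈ T, c m (t y) * ∏ j, u j k y ^ m j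

end defs

/-- finite generation for all adjoint data near `F` -/
def FGAt (n : ℕ) {W : Type} [TopologicalSpace W] [ChartedSpace (Cm n) W] (F : Set W) {N : ℕ}
    (t : W → Cm N) (z : Cm N) : Prop :=
  ∀ (α κ : Type) [Fintype α] [Fintype κ] (L : α → Bd W) (k₀ : α) (o : κ → α)
    (σ : ∀ l, (L (o l)).ι → W → ℂ), (∀ a, LBN n F (L a)) → Bnd n F L k₀ o σ → PrjN n F →
    ∀ s : Finset (α → ℤ), (∀ a ∈ s, AdjL n F L k₀ o a) →
      FGL n F t z L (AddSubmonoid.closure (s : Set (α → ℤ)) : Set (α → ℤ))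

/-- **FGC**: connected fibres -/
def FGC (n : ℕ) : Prop := ∀ (N : ℕ) (G : Geo n N), FGAt n G.F G.π 0

/-- **FGB**: finite generation for line bundles near a fibre -/
def FGB (n : ℕ) : Prop :=
  ∀ (W : Type) [TopologicalSpace W] [T2Space W] [SecondCountableTopology W]
    [ChartedSpace (Cm n) W] [IsManifold 𝓘(ℂ, Cm n) ω W] (F : Set W) (N : ℕ) (t : W → Cm N)
    (z : Cm N), Fb n F t z → FGAt n F t z

/-- ROW SNC: the divisors of sections whose zero sets have simple normal crossings -/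
def SNC (n : ℕ) : Prop := ∀ (N : ℕ) (K : Type) [Field K] [Algebra ℂ K] (M : Mdl n N K), Loc M →
  ∀ (κ : Type) [Fintype κ] (O : κ → Bd M.W) (σ : ∀ l, (O l).ι → M.W → ℂ)
    (D : κ → Div K) (s : ∀ l, (O l).ι → M.W → ℂ), (∀ l, M.Dv (D l) ∧ IsInt (D l) ∧
      M.Rep (O l) (D l) (s l) ∧ M.Sec (O l) (σ l)) →
    (∀ x ∈ M.F, ∀ k : ∀ l, (O l).ι, (∀ l, x ∈ (O l).U (k l)) →
      Ind n (fun l : {l // σ l (k l) x = 0} => σ l (k l)) x) →
    ∃ (E : κ → Div K) (s' : ∀ l, (O l).ι → M.W → ℂ),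
      (∀ l, M.Dv (E l) ∧ IsInt (E l) ∧ M.Rep (O l) (E l) (s' l) ∧ 0 ≤ E l) ∧
      (∀ P, ∑ l, E l P ≤ 1) ∧ M.Snc (⋃ l, ((E l).support : Set (Place K)))

/-- ROW CALC: the cone of positive classes -/
def CALC : Prop := ForW fun n W _ _ => ∀ (F : Set W) (α : Type) [Fintype α] (L : α → Bd W),
  (∀ a, LBN n F (L a)) →
  (∀ c Λ, ∀ x ∈ F, PosX n L c Λ x → ∀ k, (∀ a, x ∈ (L a).U (k a)) → ∀ᶠ y in 𝓝 x, Spsh n (Λ k) y) ∧
  (∀ c c', PosR n F L c → PosR n F L c' → PosR n F L (c + c')) ∧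
  (∀ c (r : ℝ), 0 < r → PosR n F L c → PosR n F L (r • c)) ∧
  (∀ c (a : α → ℤ) (θ : (∀ a, (L a).ι) → W → ℂ) (r : ℝ), SecN n F (lin L a) θ →
    (∀ x ∈ F, ∀ k, (∀ a, x ∈ (L a).U (k a)) → θ k x ≠ 0) → PosR n F L c →
    PosR n F L (c + r • fun i => (a i : ℝ))) ∧
  (∀ c (a : α → ℤ) (m : ℕ) (θ : Fin m → (∀ a, (L a).ι) → W → ℂ) (r : ℝ), 0 ≤ r →
    (∀ j, SecN n F (lin L a) (θ j)) →
    (∀ x ∈ F, ∀ k, (∀ a, x ∈ (L a).U (k a)) → ∃ j, θ j k x ≠ 0) → PosR n F L c →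
    PosR n F L (c + r • fun i => (a i : ℝ))) ∧
  (∀ (β : Type) [Fintype β] [DecidableEq α] (e : β → α) (c : β → ℝ),
    PosR n F (fun b => L (e b)) c → PosR n F L (∑ b, Pi.single (e b) (c b))) ∧
  ∀ a : α → ℤ, LBN n F (lin L a) ∧
    (PosR n F L (fun i => a i) ↔ PosR n F (fun _ : Unit => lin L a) fun _ => 1)

/-- ROW OPN: positivity is open, and stable under nef classes -/
def OPN : Prop := ForW fun n W _ _ => ∀ (F : Set W) (α : Type) [Fintype α] [DecidableEq α]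
  (L : α → Bd W), IsCompact F → (∀ a, LBN n F (L a)) →
  (∀ a, ∃ ψ, MetN n F (L a) ψ) ∧
  (∀ c, PosR n F L c → ∀ᶠ c' in 𝓝 c, PosR n F L c') ∧
  ∀ (χ : Chart n W → Cm n → Matrix (Fin n) (Fin n) ℂ) (a : α) (c : α → ℝ) (r : ℝ),
    IsHermitian χ → Nef χ (L a) → 0 ≤ r → PosR n F L c → PosR n F L (c + Pi.single a r)

end Vale.Agent.P277Z.Brg
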