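import Vale.Agent.P277Z.Brg.Amp
import Vale.Agent.P277Z.Gr.Ver

/-!
# P277, block BRG: finite generation for line bundles near a connected fibre
-/

open scoped Manifold ContDiff Topology
open Set Filter
open Vale.Agent.P272.K Vale.Agent.P285.H281.FD
open Vale.Agent.P277Z.Slc (lin)
open Vale.Agent.P277Z.Lb
open Vale.Agent.P297 (Place)
open P277Z.Gr (Mono)

noncomputable section

namespace Vale.Agent.P277Z.Brg

variable {n N : ℕ} {α : Type} [Fintype α]

theorem fgl_of {W : Type} [TopologicalSpace W] [ChartedSpace (Cm n) W] {F : Set W} {t : W → Cm N}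
    {z : Cm N} {L : α → Bd W} {S : Set (α → ℤ)} {J : Type} [Fintype J] (d : J → α → ℤ)
    (u : J → (∀ a, (L a).ι) → W → ℂ) (h : ∀ j, d j ∈ S ∧ SecN n F (lin L (d j)) (u j))
    (H : ∀ a ∈ S, ∀ s, SecN n F (lin L a) s → ∃ (I : Type) (_ : Fintype I) (m : I → J → ℕ)
      (c : I → Cm N → ℂ), (∀ i, ∑ j, m i j • d j = a ∧ AnalyticAt ℂ (c i) z) ∧
      ∀ᶠ y in 𝓝ˢ F, ∀ k, (∀ a, y ∈ (L a).U (k a)) →
        s k y = ∑ i, c i (t y) * ∏ j, u j k y ^ m i j) : FGL n F t z L S := by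
  classical
  set e := (Fintype.equivFin J).symm
  refine ⟨_, fun j => d (e j), fun j => u (e j), fun j => h _, fun a ha s hs => ?_⟩
  obtain ⟨I, _, m, c, h1, h2⟩ := H a ha s hs
  refine ⟨Finset.univ.image fun i j => m i (e j),
    fun μ w => ∑ i with (fun j => m i (e j)) = μ, c i w, fun μ hμ => ?_, h2.mono fun y hy k hk => ?_⟩
  · obtain ⟨i, -, rfl⟩ := Finset.mem_image.1 hμ
    exact ⟨(e.sum_comp fun j => m i j • d j).trans (h1 i).1,
      Finset.analyticAt_fun_sum _ fun i _ => (h1 i).2⟩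
  · rw [hy k hk, ← Finset.sum_fiberwise_of_maps_to fun i hi => Finset.mem_image_of_mem
      (fun i j => m i (e j)) hi]
    refine Finset.sum_congr rfl fun μ _ => ?_
    rw [Finset.sum_mul]
    refine Finset.sum_congr rfl fun i hi => ?_
    rw [← (Finset.mem_filter.1 hi).2, e.prod_comp fun j => u j k y ^ m i j]

theorem proj_of {G : Geo n N} (h : PrjN n G.F) : G.Proj := by
  obtain ⟨P, hP, Λ, hΛ⟩ := h
  have key := hP.near.and (eventually_nhdsSet_iff_forall.2 fun x hx => (hΛ x hx).chg)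
  obtain ⟨O, hO, hF, k⟩ := eventually_nhdsSet_iff_exists.1 key
  refine ⟨⟨P.ι, fun i => interior {y | y ∈ P.U i ∧ y ∈ O ∧ Spsh n (Λ fun _ => i) y}, P.g⟩,
    fun i => Λ fun _ => i, ⟨fun _ => isOpen_interior, fun x hx => ?_, fun i j x a b => ?_,
      fun i j x a b => ?_, fun i j l x a b c => ?_⟩, fun i x a => (interior_subset a).2.2,
    fun i j x a b => ?_⟩
  · obtain ⟨i, h1, h2⟩ := (hΛ x hx).pos
    exact ⟨i (), mem_interior_iff_mem_nhds.2 (((hP.isOpen _).eventually_mem (h1 ())).and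
      ((hO.eventually_mem (hF hx)).and h2))⟩
  all_goals have a' := interior_subset a; have b' := interior_subset b
  · exact ((k x a'.2.1).1 i j a'.1 b'.1).1
  · exact ((k x a'.2.1).1 i j a'.1 b'.1).2.1
  · exact ((k x a'.2.1).1 i j a'.1 b'.1).2.2 l (interior_subset c).1
  · simpa using (k x a'.2.1).2 (fun _ => i) (fun _ => j) (fun _ => a'.1) fun _ => b'.1

variable {K : Type} [Field K] [Algebra ℂ K] {M : Mdl n N K}

theorem hol_base {c : Cm N → ℂ} (hc : AnalyticAt ℂ c 0) (x : M.F) :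
    Hol n (fun y => c (M.π y)) x := fun e he =>
  hc.comp_of_eq (analyticAt_pi_iff.2 fun i => M.hol x x.2 i e he) (by
    rw [e.left_inv he.2]
    exact (M.fib.filter_mono (nhds_le_nhdsSet x.2)).self_of_nhds.2 x.2)

/-- from the function field to the bundles -/
theorem fgl_K (hB : Lbd M) (hC : Coh M) {L : α → Bd M.W} {D : α → Div K}
    {s : ∀ a, (L a).ι → M.W → ℂ} (h : ∀ a, M.Rep (L a) (D a) (s a)) (φ : (α → ℤ) →+ Div K)
    (hφ : ∀ d, φ d = ∑ a, (d a : ℝ) • D a) {S : AddSubmonoid (α → ℤ)} (hS : S.FG) {S' : Set (Div K)}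
    (hS' : ∀ a ∈ S, φ a ∈ S') (H : P277Z.Gr.FG M.H0 S') : FGL n M.F M.π 0 L S := by
  classical
  obtain ⟨T, hT, h1, h2⟩ := H.comap_strict (FI.fam_H0 M) φ S hS hS'
  obtain ⟨T₀, h3, h4⟩ := hC.base
  have := hT.fintype
  let d : T ⊕ T₀ → α → ℤ := Sum.elim (fun t => t.1.1) fun _ => 0
  let f : T ⊕ T₀ → K := Sum.elim (fun t => t.1.2) Subtype.val
  have hd : ∀ j, d j ∈ S ∧ f j ∈ M.H0 (φ (d j)) := by
    rintro (t | t)
    · exact h1 t.1 t.2
    · exact ⟨S.zero_mem, by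
        simpa [d, f, Subalgebra.smul_def] using
          (M.H0 0).smul_mem ⟨t.1, h3 t.1 t.2⟩ (FI.fam_H0 M).one⟩
  choose u hu hm using fun j => hB.sec _ _ _ (f j) (rep_lin h (d j)) (hφ _ ▸ (hd j).2)
  refine fgl_of d u (fun j => ⟨(hd j).1, hu j⟩) fun a ha σ hσ => ?_
  obtain ⟨g, hg, hg'⟩ := hB.fn _ _ _ σ (rep_lin h a) hσ
  have k := h2 a ha (hφ a ▸ hg)
  have e : T = range fun t : T => (t.1.1, t.1.2) := Subtype.range_coe.symm
  rw [sup_bot_eq, P277Z.Gr.gen, Submodule.mem_span_set'] at k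
  obtain ⟨r, b, w, rfl⟩ := k
  choose μ hμ hw using fun i => (Mono.iff_range (fun t : T => t.1.1) fun t => t.1.2).1
    (Mono.mono (w i).2 e.le)
  choose c hc hc' using fun i => h4 (b i) (b i).2
  let m : Fin r × T₀ → T ⊕ T₀ → ℕ := fun i => Sum.elim (μ i.1) (Pi.single i.2 1)
  have hm1 : ∀ i, ∑ j, m i j • d j = a := fun i => by simpa [m, d] using hμ i.1
  have hm2 : ∀ i, ∏ j, f j ^ m i j = i.2 * w i.1 := fun i => by
    simp [m, f, hw, Pi.single_apply, pow_ite, mul_comm]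
  refine ⟨Fin r × T₀, inferInstance, m, fun i => c i.1 i.2, fun i => ⟨hm1 i, hc _ _⟩,
    eventually_nhdsSet_iff_forall.2 fun x hx => ?_⟩
  obtain ⟨k₀, hk⟩ := (lb_lin (fun a => (h a).lb) a).cover x hx
  have hσ' := hσ.filter_mono (nhds_le_nhdsSet hx)
  have hu' := eventually_all.2 fun j => (hu j).filter_mono (nhds_le_nhdsSet hx)
  have key : ∀ᶠ y in 𝓝 x, σ k₀ y = ∑ i : Fin r × T₀, c i.1 i.2 (M.π y) * ∏ j, u j k₀ y ^ m i j := by
    refine (hσ'.self_of_nhds k₀ hk).1.eq_of_gen (Hol.sum _ fun i _ => (hol_base (hc _ _) ⟨x, hx⟩).mul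
      (Hol.prod _ fun j _ => (hu'.self_of_nhds j k₀ hk).1.pow _)) ?_
    filter_upwards [hg' ⟨x, hx⟩ k₀ hk, eventually_all.2 fun j => hm j ⟨x, hx⟩ k₀ hk,
      eventually_all.2 fun a => rep_ne (h a) ⟨x, hx⟩ (hk a),
      gen_at (M.val_sum Finset.univ fun i => (b i : K) * w i) hx,
      eventually_all.2 fun i => gen_at (M.val_mul (b i) (w i)) hx,
      eventually_all.2 fun i : Fin r × T₀ => gen_at (M.val_mul i.2 (w i.1)) hx,
      eventually_all.2 fun i => gen_at (M.val_prod Finset.univ fun j => f j ^ m i j) hx,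
      eventually_all.2 fun i => eventually_all.2 fun j => gen_at (M.val_pow (f j) (m i j)) hx,
      gen_of_nhds (eventually_all.2 fun i => (hc' i).filter_mono (nhds_le_nhdsSet hx))]
      with y e1 e2 e3 e4 e5 e6 e7 e8 e9
    have e10 : ∀ i, ∏ j, u j k₀ y ^ m i j =
        M.val i.2 y * M.val (w i.1) y * ∏ l, s l (k₀ l) y ^ a l := fun i => by
      rw [← e6, ← hm2, e7, ← hm1 i, pw_sum e3, ← Finset.prod_mul_distrib]
      exact Finset.prod_congr rfl fun j _ => by rw [e2, e8, mul_pow]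
    rw [e1]
    refine (congrArg (· * _) e4).trans ?_
    simp only [e10, e5, e9, Fintype.sum_prod_type, Finset.sum_mul]
    refine Finset.sum_congr rfl fun i _ => ?_
    rw [← Finset.sum_coe_sort T₀]
    exact Finset.sum_congr rfl fun t _ => by ring
  filter_upwards [key, hσ', hu', ((lb_lin (fun a => (h a).lb) a).isOpen k₀).eventually_mem hk]
    with y e1 e2 e3 e4 k hk'
  rw [(e2 k hk').2 k₀ e4, e1, Finset.mul_sum]
  refine Finset.sum_congr rfl fun i _ => ?_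
  simp only [fun j => (e3 j k hk').2 k₀ e4, mul_pow, Finset.prod_mul_distrib, lin]
  rw [← pw_sum fun l => (h l).lb.ne_zero _ _ y (hk' l) (e4 l), hm1]
  ring

theorem secN_res {W : Type} [TopologicalSpace W] [ChartedSpace (Cm n) W] {F O : Set W}
    (hO : O ∈ 𝓝ˢ F) {L : α → Bd W} {a : α → ℤ} {s : (∀ a, (L a).ι) → W → ℂ} :
    SecN n F (lin (fun a => res O (L a)) a) s ↔ SecN n F (lin L a) s :=
  ⟨fun h => by
    filter_upwards [h, hO] with y h1 h2 i hi
    exact ⟨(h1 i fun a => ⟨hi a, h2⟩).1, fun j hj =>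
      (h1 i fun a => ⟨hi a, h2⟩).2 j fun a => ⟨hj a, h2⟩⟩,
  fun h => h.mono fun y h1 i hi =>
    ⟨(h1 i fun a => (hi a).1).1, fun j hj => (h1 i fun a => (hi a).1).2 j fun a => (hj a).1⟩⟩

theorem fgc (hM : MK) (hL : LOC n) (hC : COH n) (hG : GGF) (hS : SNC n) (hA : FI.THA n) :
    FGC n := by
  classical
  intro N G α κ _ _ L k₀ o σ hLB hB hP S hadj
  obtain ⟨K, _, _, M, rfl⟩ := hM n N G
  have hp : M.Proj := proj_of hP
  have lc := hL N K M hp
  obtain ⟨O, hO, hF, hn⟩ := eventually_nhdsSet_iff_exists.1 (eventually_all.2 fun a => (hLB a).near)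
  have lb : ∀ a, M.LB (res O (L a)) := fun a =>
    ⟨fun i => ((hLB a).isOpen i).inter hO, fun x hx => ((hLB a).cover x hx).imp fun _ k => ⟨k, hF hx⟩,
      fun i j x h h' => (hn x h.2 a i j h.1 h'.1).1, fun i j x h h' => (hn x h.2 a i j h.1 h'.1).2.1,
      fun i j k x h h' h'' => (hn x h.2 a i j h.1 h'.1).2.2 k h''.1⟩
  choose D₀ s₀ h0 using fun a => rep_of hG M hp lc _ (lb a)
  obtain ⟨E, s', hE, hE1, hT⟩ := hS N K M lc κ (fun l => res O (L (o l))) σ (fun l => D₀ (o l))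
    (fun l => s₀ (o l)) (fun l => ⟨(h0 _).1, (h0 _).2.1, (h0 _).2.2, (hB.sec l).mono fun y h i hi =>
      ⟨(h i hi.1).1, fun j hj => (h i hi.1).2 j hj.1⟩⟩) fun x hx k hk => hB.snc x hx k fun l => (hk l).1
  obtain ⟨x₀, hx₀⟩ := M.conn.nonempty
  obtain ⟨g, hg⟩ := lc.coord ⟨x₀, hx₀⟩
  obtain ⟨κ₀, hκ, -⟩ := FI.can_coord lc hg
  have ex : ∀ a, ∃ (D : Div K) (s : (L a).ι → M.W → ℂ), M.Dv D ∧ IsInt D ∧
      M.Rep (res O (L a)) D s ∧ (a = k₀ → D = κ₀) ∧ ∀ l, o l = a → D = E l := fun a => by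
    by_cases h1 : a = k₀
    · obtain ⟨s, hs⟩ : ∃ s, M.Rep (L a) κ₀ s := by
        rw [h1, hB.can]
        exact ⟨_, lbd_can M lc g κ₀ hκ⟩
      exact ⟨κ₀, s, hκ.1, FI.can_int lc hκ, rep_res hs hO hF, fun _ => rfl,
        fun l h => (hB.ne l (h.trans h1)).elim⟩
    by_cases h2 : ∃ l, o l = a
    · obtain ⟨l, rfl⟩ := h2
      exact ⟨E l, s' l, (hE l).1, (hE l).2.1, (hE l).2.2.1, fun h => (h1 h).elim,
        fun l' h => by rw [hB.inj h]⟩
    · exact ⟨D₀ a, s₀ a, (h0 a).1, (h0 a).2.1, (h0 a).2.2, fun h => (h1 h).elim,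
        fun l h => (h2 ⟨l, h⟩).elim⟩
  choose D s h1 h2 h3 h4 h5 using ex
  let φ : (α → ℤ) →+ Div K :=
    { toFun := fun d => ∑ a, (d a : ℝ) • D a
      map_zero' := by simp
      map_add' := fun d d' => by simp [add_smul, Finset.sum_add_distrib] }
  have sys : FI.Sys M κ₀ (⋃ l, ((E l).support : Set (Place K))) (S.image φ) := by
    refine ⟨FI.isCan_of lc hκ, finite_iUnion fun l => (E l).support.finite_toSet, hT, ?_, ?_, ?_⟩
    all_goals simp only [Finset.forall_mem_image]; intro a ha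
    · exact FI.dv_sum _ fun i _ => FI.dv_smul (h1 i) _
    · exact FI.IsInt.sum _ fun i _ => FI.IsInt.zsmul (h2 i) _
    obtain ⟨d, b, hd, hb, Λ, hΛ⟩ := hadj a ha
    refine ⟨d, hd, ∑ l, b l • E l, fun P hP => ?_, fun P => ?_, ?_⟩
    · obtain ⟨l, -, hl⟩ := Finset.mem_biUnion.1 (Finsupp.support_finsetSum hP)
      exact mem_iUnion.2 ⟨l, Finsupp.support_smul hl⟩
    · simp only [Finsupp.finsetSum_apply, Finsupp.smul_apply, smul_eq_mul]
      exact ⟨Finset.sum_nonneg fun l _ => mul_nonneg (hb l).1 ((hE l).2.2.2 P),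
        (Finset.sum_le_sum fun l _ => mul_le_of_le_one_left ((hE l).2.2.2 P) (hb l).2).trans (hE1 P)⟩
    · have k := amp_of lc h3 ⟨Λ, fun x hx => ⟨(hΛ x hx).pos.imp fun k hk =>
        ⟨fun a => ⟨hk.1 a, hF hx⟩, hk.2⟩, (hΛ x hx).chg.mono fun y hy k k' e e' =>
          hy k k' (fun a => (e a).1) fun a => (e' a).1⟩⟩
      have e : ∀ (i : α) (r : ℝ), ∑ a, (Pi.single i r : α → ℝ) a • D a = r • D i := fun i r => by
        simp [Pi.single_apply, ite_smul]
      simp only [Pi.sub_apply, sub_smul, Finset.sum_sub_distrib, Finset.sum_apply,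
        Finset.sum_smul, mul_smul, ← Finset.smul_sum] at k
      rw [Finset.sum_comm] at k
      simp only [e, one_smul, h4 k₀ rfl, fun l => h5 _ l rfl] at k
      exact k
  obtain ⟨q, d, u, k1, k2⟩ := fgl_K (lbd M lc) (hC N K M hp) h3 φ (fun _ => rfl)
    (S := AddSubmonoid.closure (S : Set (α → ℤ))) ⟨S, rfl⟩ (fun a ha => by
      rw [Finset.coe_image, ← AddMonoidHom.map_mclosure]
      exact ⟨a, ha, rfl⟩) (hA N K M hp _ _ _ sys)
  have hO' := hO.mem_nhdsSet.2 hF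
  refine ⟨q, d, u, fun j => ⟨(k1 j).1, (secN_res hO').1 (k1 j).2⟩, fun a ha t ht => ?_⟩
  obtain ⟨T, c, e1, e2⟩ := k2 a ha t ((secN_res hO').2 ht)
  exact ⟨T, c, e1, by filter_upwards [e2, hO'] with y k k' i hi using k i fun a => ⟨hi a, k'⟩⟩

end Vale.Agent.P277Z.Brg
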