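import Vale.Agent.P277Z.Brg.Defs
import Vale.Agent.P277Z.Pj.Sk
import Vale.Agent.P277Z.Val.Mod

/-!
# P277, block BRG: compact manifolds over complex spaces (statements)
-/

open scoped Manifold ContDiff Topology
open Set Filter
open Vale.Agent.P272.K Vale.Agent.P285.H281.FD Vale.Agent.P277
open Vale.Agent.P277.H60.Z (XH)
open Vale.Agent.P277.T2 (IsCmpV)
open Vale.Agent.P277Z.Slc (lin)
open Vale.Agent.P277Z.Val (Lg IsPM Res)

noncomputable section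

namespace Vale.Agent.P277Z.Brg

/-- the real combination `∑ c a • L a` is positive near every fibre of `p` -/
def RPos (n : ℕ) {W X α : Type} [TopologicalSpace W] [ChartedSpace (Cm n) W] [Fintype α]
    (p : W → X) (L : α → Bd W) (c : α → ℝ) : Prop :=
  ∀ x, PosR n (p ⁻¹' {x}) L c

/-- the bundle `lin L a` is trivial near every fibre of `p` -/
def RTrv (n : ℕ) {W X α : Type} [TopologicalSpace W] [ChartedSpace (Cm n) W] [Fintype α]
    (p : W → X) (L : α → Bd W) (a : α → ℤ) : Prop :=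
  ∀ x, ∃ θ, SecN n (p ⁻¹' {x}) (lin L a) θ ∧
    ∀ w, p w = x → ∀ k, (∀ a, w ∈ (L a).U (k a)) → θ k w ≠ 0

/-- a statement on all compact manifolds -/
def ForC (P : ∀ (n : ℕ) (W : Type) [TopologicalSpace W] [T2Space W] [CompactSpace W]
    [ChartedSpace (Cm n) W] [IsManifold 𝓘(ℂ, Cm n) ω W], Prop) : Prop :=
  ∀ (n : ℕ) (W : Type) [TopologicalSpace W] [T2Space W] [CompactSpace W]
    [ChartedSpace (Cm n) W] [IsManifold 𝓘(ℂ, Cm n) ω W], P n W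

/-- ROW RAMP: relatively ample bundles are relatively positive -/
def RAMP : Prop := ForC fun n W _ _ _ _ _ => ∀ (X : CSp) (p : W → X.pt) (P : Bd W),
  Pj.HolTo n X p → IsLB n P → RelAmple (XH n W) X p P →
  RPos n p (fun _ : Unit => P) fun _ => 1

/-- ROW RPO: relative positivity is open; fibres -/
def RPO : Prop := ForC fun n W _ _ _ _ _ => ∀ (X : CSp) (p : W → X.pt), Pj.HolTo n X p →
  (∀ (α : Type) [Fintype α] (L : α → Bd W), (∀ a, IsLB n (L a)) → ∀ c, RPos n p L c →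
    ∀ᶠ c' in 𝓝 c, RPos n p L c') ∧
  ∀ (N k : ℕ) (V : Set X.pt) (Ω : Set (Cm N)) (h : Fin k → Cm N → ℂ) (ψ : X.pt → Cm N),
    IsModel X.Hol V Ω h ψ → ∀ x ∈ V,
    {C | ∃ w, p w = x ∧ C = connectedComponentIn (p ⁻¹' {x}) w}.Finite →
    Fb n (p ⁻¹' {x}) (fun w => ψ (p w)) (ψ x)

variable {k : ℕ}

/-- the bundles `K`, `M e`, `O l` -/
def fam (V : Lg) (M : Fin k → Bd V.W) (O : Fin V.r → Bd V.W) : Option (Fin k ⊕ Fin V.r) → Bd V.W
  | none => Bd.can 4 V.W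
  | some (.inl e) => M e
  | some (.inr l) => O l

/-- the vector with the entries `a`, `b e`, `c l` -/
def vec {R : Type} {r : ℕ} (a : R) (b : Fin k → R) (c : Fin r → R) : Option (Fin k ⊕ Fin r) → R
  | none => a
  | some (.inl e) => b e
  | some (.inr l) => c l

/-- the class `c e • (m e • K + M e) - ∑ n e l • G l` -/
def rel {r : ℕ} (m c : Fin k → ℕ) (n : Fin k → Fin r → ℤ) (e : Fin k) :
    Option (Fin k ⊕ Fin r) → ℤ :=
  vec (c e * m e) (Pi.single e (c e)) fun l => -n e l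

/-- ROW DIVV: the bundles of the components -/
def DIVV : Prop := ∀ (V : Lg) (O : Fin V.r → Bd V.W) (σ : ∀ l, (O l).ι → V.W → ℂ),
  (∀ l, Slc.IsDiv 4 (V.G l) (O l) (σ l)) →
  (∀ (k : ℕ) (M : Fin k → Bd V.W) (F : Set V.W),
    Bnd 4 F (fam V M O) none (fun l => some (.inr l)) σ) ∧
  (∀ (X : CSp) (p : V.W → X.pt) (P : Bd V.W) (c : Fin V.r → ℕ)
    (τ : (P277.Bd.inv P).ι → V.W → ℂ), IsLB 4 P → Val.IsDiv V (P277.Bd.inv P) τ c →
    RPos 4 p (fun _ : Unit => P) (fun _ => 1) → RPos 4 p O fun l => -(c l : ℝ)) ∧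
  ∀ (k : ℕ) (m c : Fin k → ℕ) (M : Fin k → Bd V.W) (X : CSp) (L : Fin k → Bd X.pt)
    (p : V.W → X.pt) (n : Fin k → Fin V.r → ℤ) t, Pj.HolTo 4 X p → (∀ e, IsLB 4 (M e)) →
    (∀ e, IsLBx X (L e)) →
    IsCmpV p L (fun e => (((Bd.can 4 V.W).pow (m e)).mul (M e)).pow (c e)) V.G n t →
    ∀ e, RTrv 4 p (fam V M O) (rel m c n e)

/-- **ADJV**: the ample part of the adjoint classes -/
def ADJV : Prop := ∀ (k : ℕ) (m : Fin k → ℕ) (V : Lg) χ (M : Fin k → Bd V.W) (X : CSp)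
  (L : Fin k → Bd X.pt) (c : Fin k → ℕ) (p : V.W → X.pt) exc n (O : Fin V.r → Bd V.W)
  (σ : ∀ l, (O l).ι → V.W → ℂ), (∀ l, Slc.IsDiv 4 (V.G l) (O l) (σ l)) → (∀ e, IsLBx X (L e)) →
  IsPM m V χ M X L c p exc n → ∀ γ : Fin V.r → ℝ, RPos 4 p O γ →
  ∀ ρ lam : Fin k → ℝ, (∀ e, 0 ≤ ρ e) →
    RPos 4 p (fam V M O) (vec 0 ρ γ + ∑ e, lam e • fun a => (rel m c n e a : ℝ))

/-- **FGV**: finite generation along the fibres of a projective resolution -/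
def FGV : Prop := ∀ (k : ℕ) (V : Lg) (M : Fin k → Bd V.W) (X : CSp) (p : V.W → X.pt) exc
  (O : Fin V.r → Bd V.W) (σ : ∀ l, (O l).ι → V.W → ℂ), (∀ l, Slc.IsDiv 4 (V.G l) (O l) (σ l)) →
  (∀ e, IsLB 4 (M e)) → Res V X p exc →
  (∃ γ : Fin V.r → ℕ, (∀ l, 0 < γ l ↔ l ∈ exc) ∧ RPos 4 p O fun l => -(γ l : ℝ)) ∧
  ∀ (N k' : ℕ) (U : Set X.pt) (Ω : Set (Cm N)) (h : Fin k' → Cm N → ℂ) (ψ : X.pt → Cm N),
    IsModel X.Hol U Ω h ψ → ∀ x ∈ U, ∀ s : Finset (Option (Fin k ⊕ Fin V.r) → ℤ),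
    (∀ a ∈ s, ∃ (d : ℝ) (b : Fin V.r → ℝ), 0 < d ∧ (∀ l, 0 ≤ b l ∧ b l ≤ 1) ∧
      PosR 4 (p ⁻¹' {x}) (fam V M O) ((fun i => d⁻¹ * a i) - vec 1 0 b)) →
    FGL 4 (p ⁻¹' {x}) (fun w => ψ (p w)) (ψ x) (fam V M O)
      (AddSubmonoid.closure (s : Set (Option (Fin k ⊕ Fin V.r) → ℤ)) : Set _)

end Vale.Agent.P277Z.Brg
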